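import Crest.Agent.X212.Bb31.Reg

/-!
# X212/Bb31/Col (helper31): change of the end value by an exact form, in a collar

`exists_col`, `EXR.sh`, `UC.hel`, `stpCol`, `Cg`, `UC.col`.
-/

set_option autoImplicit false
set_option linter.unusedSectionVars false

open Set Filter Topology Function Module Metric
open scoped ContDiff Manifold
open Crest.Agent.R208 Crest.Agent.R208.F Crest.Agent.R208.FI Crest.Agent.X212.Dr59
  Crest.Agent.X212.Cyl58
open Crest.Agent.X212.Int54 (tp rat Ori SameOn)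
open Crest.Agent.X212.Sep15 (EE IR IC CM End Box slab px Sw Op Rg)
open Crest.Agent.X212.Orx52 (oZ pr cy)
open Crest.Agent.X212.Sym24 (pu dt sl dT ft)

noncomputable section

namespace Crest.Agent.X212.Bb31

variable {Y : CM 3} {R : CM 2} {C : End Y}

/-- a form which is a product near the end is made a product above any level -/
theorem exists_col (a : ℝ) {ζ : Fm 4 C.X} {β : Fm 3 Y} (hζ : Z2 ζ) (e : En C.j ζ β) :
    ∃ μ : Fm 4 C.X, F1 μ ∧ En C.j μ (0 : Fm 3 Y) ∧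
      ∀ p : Y × ℝ, a < p.2 → pm (IR 3) (𝓡 4) C.j (ζ + dM (𝓡 4) μ) p = pu β p := by
  obtain ⟨ε, hε, e⟩ := e
  let k := bp (a - 1) a (-(ε / 2)) (-(ε / 4))
  have hS : ContMDiff (IR 3) 𝓘(ℝ, ℝ) ∞ fun p : Y × ℝ => p.2 + k p.2 * (-(ε / 2) - p.2) :=
    contMDiff_snd.add (((contDiff_bp _ _ _ _).contMDiff.comp contMDiff_snd).mul
      (contMDiff_const.sub contMDiff_snd))
  obtain ⟨μ, h1, h2, h3⟩ := exists_vcol (OE.of_oe C.oe) hS
    (isCompact_univ.prod (isCompact_Icc (a := a - 1) (b := -(ε / 4)))) (subset_univ _)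
    (fun p hp => by
      rw [show k p.2 = 0 from bp_zero (by linarith) (by linarith) fun h => hp ⟨trivial, h⟩]
      ring) (fun _ _ _ _ => trivial) hζ
  refine ⟨μ, h1, ⟨ε / 4, by linarith, fun p hp => ?_⟩, fun p hp => ?_⟩
  · rw [pm_apply, h2 _ fun h => hp.not_ge (C.oe.inj.mem_set_image.1 h).2.2, map_zero, pu_zero]
    rfl
  · rw [h3 p trivial]
    refine pm_vm_pu hS (e _ ?_)
    show -ε < p.2 + k p.2 * (-(ε / 2) - p.2)
    rcases le_total p.2 (-(ε / 2)) with h | h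
    · rw [show k p.2 = 1 from bp_one (by linarith) (by linarith) hp.le h]
      linarith
    · nlinarith [show k p.2 ≤ 1 from bp_le_one _ _ _ _ _]

theorem pm_shift {X : Type} [TopologicalSpace X] [ChartedSpace (EE 4) X] [IsManifold (𝓡 4) ∞ X]
    {j j' : Y × ℝ → X} (hj : IsOE (IR 3) (𝓡 4) j) (c : ℝ) (e : ∀ p, j' p = j (p.1, p.2 + c))
    {a : Fm 4 X} {β : Fm 3 Y} {p : Y × ℝ}
    (h : pm (IR 3) (𝓡 4) j a (p.1, p.2 + c) = pu β (p.1, p.2 + c)) :
    pm (IR 3) (𝓡 4) j' a p = pu β p := by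
  have hS : ContMDiff (IR 3) 𝓘(ℝ, ℝ) ∞ fun p : Y × ℝ => p.2 + c := contMDiff_snd.add contMDiff_const
  rw [← pm_vm_pu hS h, pm_comp ((hj.contMDiff _).mdifferentiableAt ne0)
    ((cm_vm hS p).mdifferentiableAt ne0), funext e]
  rfl

theorem EXR.sh (h : EXR C) (c : ℝ) : EXR (sh C c) := fun d hd => by
  obtain ⟨u, h1, h2⟩ := h d hd
  obtain ⟨μ, m1, -, m2⟩ := exists_col (c - 1) h1 h2
  exact ⟨u + dM (𝓡 4) μ, h1.add m1.z2, 1, one_pos, fun p hp =>
    pm_shift C.oe c (fun _ => rfl) (m2 _ (by linarith))⟩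

/-- the end value is moved into the admissible set -/
theorem UC.hel {O : Fm 4 C.X} {A A' D : Set (Fm 3 Y)} (h : UC C O A {0}) (hC : EXR C)
    (k : ∀ (ι : Type) [Finite ι] (a : ι → Fm 3 Y), (∀ q, a q ∈ A') →
      ∃ d ∈ D, Z2 d ∧ ∀ q, a q + d ∈ A) : UC C O A' D := fun c ι _ ζ β h1 h2 h3 => by
  obtain ⟨d, d1, d2, d3⟩ := k ι β h2
  obtain ⟨u, u1, u2⟩ := hC.sh c d d2
  obtain ⟨_, rfl, v, v1, v2, v3⟩ := h c ι (fun q => ζ q + u) _ (fun q => (h1 q).add u1) d3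
    fun q => (h3 q).add u2
  exact ⟨d, d1, u + v, u1.add v1, by simpa using u2.add v2, by simpa only [add_assoc] using v3⟩

/-! ### the collar as a step -/

/-- `(x, z) ↦ ((x, Im z), Re z)` -/
def rs (R : CM 2) : (R × ℂ) ≃ₘ^∞⟮IC, (IR 2).prod 𝓘(ℝ, ℝ)⟯ (R × ℝ) × ℝ where
  toFun p := ((p.1, p.2.im), p.2.re)
  invFun q := (q.1.1, q.2 • (1 : ℂ) + q.1.2 • Complex.I)
  left_inv p := by simp
  right_inv q := by simp
  contMDiff_toFun :=
    (contMDiff_fst.prodMk (Complex.imCLM.contDiff.contMDiff.comp contMDiff_snd)).prodMk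
      (Complex.reCLM.contDiff.contMDiff.comp contMDiff_snd)
  contMDiff_invFun := contMDiff_fst.fst.prodMk
    ((contMDiff_snd.smul contMDiff_const).add (contMDiff_fst.snd.smul contMDiff_const))

theorem pos_rs {oR : Fm 2 R} (hR : Ori (𝓡 2) oR) :
    Orx52.Pos IC ((IR 2).prod 𝓘(ℝ, ℝ)) (rs R) univ (pr oR oZ) (cy (cy oR)) := by
  refine Orx52.pos_of_eq (Orx52.oriOn (Orx52.ori_pr hR Orx52.ori_oZ) _) (c := fun _ => 1)
    (fun _ _ => one_pos) fun p _ => ?_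
  have h := (rs R).contMDiff p
  rw [Orx52.pm_cy (h.mdifferentiableAt ne0),
    Orx52.pm_cy (φ := Prod.fst ∘ rs R) (h.fst.mdifferentiableAt ne0), ← mul_assoc,
    Orx52.pr_eq (𝓡 2) 𝓘(ℝ, ℂ), Pi.mul_apply, one_smul,
    Orx52.pm_oZ (I := IC) (g := Prod.snd) mdifferentiableAt_snd]
  exact (Sym24.comm2 (T.isDeg_mul (isDeg_io _) (isDeg_io _)) _).symm

/-- a collar as a fibred step -/
def stpCol (C : End Y) {b : R × ℝ → Y} (hb : Box b) :
    Stp (sh C (-2)) C (fun _ : Unit => b) (fun _ : Unit => b) where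
  i := id
  X₀ := univ
  e := ((sh C (-2)).j ∘ Prod.map b id) ∘ rs R
  w := id
  J _ := 1
  Ω _ := univ
  g s := s + 2
  φ := id
  bx := ⟨fun _ => hb, fun _ _ _ _ _ => rfl⟩
  oi := OE.of_oe IsOE.id
  oe := ((sh C (-2)).oe.comp (hb.prodMap IsOE.id)).comp (IsOE.of_diffeo _)
  ws := contDiff_id
  wJ z := by rw [pm_id, one_smul]
  Jp _ _ := one_pos
  cp r := isCompact_closedBall 0 r
  oΩ _ := isOpen_univ
  eq _ _ _ := ⟨trivial, rfl⟩
  hit _ _ _ _ := ⟨(), trivial⟩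
  cov x := .inl ⟨x, trivial, rfl⟩
  ax _ h := (h () trivial).elim
  ont _ _ y t _ := ⟨⟨t, y⟩, trivial, rfl⟩
  slt _ h := (h trivial).elim
  gm s t h := by simpa using h
  gc := by fun_prop
  g0 := by norm_num
  gs t _ := ⟨t - 2, by ring⟩
  ej p _ s := by simp [sh]
  ee z _ := ⟨(), fun x s e => by
    obtain rfl : s = z.re + -2 := by simp [← show s + 2 = z.re from e]
    rfl⟩
  su p := by
    by_cases h : p ∈ slabs (fun _ : Unit => b) {0}
    · obtain ⟨_, x, _, rfl, rfl⟩ := exists_of_slabs h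
      exact .inr fun s _ => ⟨x, _, rfl, congrArg (fun t => C.j (b (x, 0), t))
        (show s = s + 2 + -2 by ring)⟩
    · exact .inl ⟨p, h, rfl⟩

theorem exists_psi {r : ℝ} (hr : r < 1) : ∃ ψ : ℝ → ℝ, Up ψ univ ∧ (∀ y, ψ y ∈ Ioo (-1 : ℝ) 1) ∧
    Icc (-r) r ⊆ ψ '' Icc (-2⁻¹) 2⁻¹ := by
  obtain ⟨s, h1, h2⟩ := exists_between (max_lt hr one_pos)
  obtain ⟨h0, h1⟩ := max_lt_iff.1 h1
  have hp := Real.pi_pos
  have h3 : Real.pi / 2 * s < Real.pi / 2 := by nlinarith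
  have h4 : 0 < Real.pi / 2 * s := by positivity
  have hN := Real.tan_pos_of_pos_of_lt_pi_div_two h4 h3
  have u : Up Real.arctan univ := Up.of_hasDerivAt (fun _ _ => Real.contDiff_arctan.contDiffAt)
    (fun x _ => Real.hasDerivAt_arctan x) fun x _ => by positivity
  have hψ := ((Up.aff 0 (d := 2 / Real.pi) (by positivity) univ).comp u (mapsTo_univ _ _)).comp
    (Up.aff 0 (mul_pos two_pos hN) univ) (mapsTo_univ _ _)
  have e : ∀ x, 2 / Real.pi * (Real.pi / 2 * x) = x := fun x => by field_simp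
  refine ⟨_, hψ, fun y => ?_, Subset.trans (Icc_subset_Icc ?_ ?_)
    (intermediate_value_Icc (by norm_num) hψ.continuous.continuousOn)⟩
  · have a := mul_lt_mul_of_pos_left (Real.arctan_lt_pi_div_two (0 + 2 * Real.tan (Real.pi / 2 * s) * y))
      (show 0 < 2 / Real.pi by positivity)
    have b := mul_lt_mul_of_pos_left
      (Real.neg_pi_div_two_lt_arctan (0 + 2 * Real.tan (Real.pi / 2 * s) * y))
      (show 0 < 2 / Real.pi by positivity)
    have := e 1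
    constructor <;> simp only [comp_apply] <;> linarith
  · simp only [comp_apply]
    rw [show 0 + 2 * Real.tan (Real.pi / 2 * s) * -2⁻¹ = -Real.tan (Real.pi / 2 * s) by ring,
      Real.arctan_neg, Real.arctan_tan (by linarith) h3, mul_neg, e]
    linarith
  · simp only [comp_apply]
    rw [show 0 + 2 * Real.tan (Real.pi / 2 * s) * 2⁻¹ = Real.tan (Real.pi / 2 * s) by ring,
      Real.arctan_tan (by linarith) h3, e]
    linarith

/-- `d'` is `d` minus an exact form in a box; all slices vanish -/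
def Cg (b : R × ℝ → Y) (d d' : Fm 3 Y) : Prop :=
  ∃ (l : Fm 3 Y) (r : ℝ), r < 1 ∧ F1 l ∧ (∀ p ∉ slab b (Icc (-r) r), l p = 0) ∧
    (∀ x y, sl y (pm (IR 2) (𝓡 3) b d) x = 0) ∧
    (∀ x y, sl y (pm (IR 2) (𝓡 3) b (dM (𝓡 3) l)) x = 0) ∧ d' = d - dM (𝓡 3) l

theorem col_half (hN : NfStmt) {b : R × ℝ → Y} {o : Fm 3 Y} {O : Fm 4 C.X} {oR : Fm 2 R}
    (ho : Ori (𝓡 3) o) (hO : Ori (𝓡 4) O) (hR : Ori (𝓡 2) oR) (hc : Cy o O C.j) (hb : Box b)
    (cb : Cy oR o b) {ι : Type} [Finite ι] {z : ι → Fm 4 C.X} {β : ι → Fm 3 Y} {v : Fm 4 C.X}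
    {d l : Fm 3 Y} (hz : ∀ q, Z2 (z q)) (ez : ∀ q, En (sh C (-2)).j (z q) (β q))
    (hβ : ∀ q, SP oR b (β q) univ) (hv : Z2 v) (ev : En (sh C (-2)).j v d) (hl : F1 l)
    (l0 : ∀ p ∉ slab b (Icc (-2⁻¹) 2⁻¹), l p = 0) (s1 : ∀ x y, sl y (pm (IR 2) (𝓡 3) b d) x = 0)
    (s2 : ∀ x y, sl y (pm (IR 2) (𝓡 3) b (dM (𝓡 3) l)) x = 0)
    (hG : Gd (sh C (-2)) O fun q => z q + v) :
    ∃ u : Fm 4 C.X, Z2 u ∧ En C.j u (d - dM (𝓡 3) l) ∧ Gd C O fun q => z q + u := by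
  let S := stpCol C hb
  let j : Y × ℝ → C.X := (sh C (-2)).j
  have oj : IsOE (IR 3) (𝓡 4) j := (sh C (-2)).oe
  have oA : IsOpen (X := C.X) S.A := S.isOpen_A
  have hρ := contDiff_stp (2⁻¹ : ℝ) 1
  have sa : Sm (IR 3) univ (ft Y (stp 2⁻¹ 1) • pu l) := fun p _ =>
    Sym24.smAt_ft hρ (Sym24.smAt_pu (hl.sm _ trivial))
  obtain ⟨w, w1, w2, w3, w4, -⟩ := exists_patch' (a := ft Y (stp 2⁻¹ 1) • pu l) (b := 0)
    (OE.of_oe oj) oA (fun x => or_iff_not_imp_left.2 fun h => by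
      obtain ⟨p, -, rfl⟩ := not_not.1 h
      exact ⟨p, trivial, rfl⟩) fun p _ hp => by
      rw [pm_zero, Pi.smul_apply', ft, pu]
      rcases not_and_or.1 (S.j_mem_A.1 hp) with h | h
      · rw [l0 _ fun k => h (mem_iUnion.2 ⟨(), k⟩), map_zero, smul_zero]
        rfl
      · rw [stp_zero (by norm_num) (not_le.1 h).le, zero_smul]
        rfl
  have hw : F1 w := ⟨w3 Sm.zero sa, w4 1 Dg.zero fun p _ => (Sym24.isDeg_up (hl.dg _ trivial)).smul _⟩
  have dw := fun p => (OE.of_oe oj).pm_dM w2 (hw.sm.mono (subset_univ _)) (mem_univ p)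
  have tr : ∀ {a : Fm 4 C.X} {B : Fm 3 Y}, (∀ p : Y × ℝ, 1 < p.2 →
      pm (IR 3) (𝓡 4) j a p = pu B p) → En C.j a B := fun h =>
    ⟨1, one_pos, fun p hp => pm_shift oj 2 (fun p => by simp [j, sh]) (h _ (by linarith))⟩
  obtain ⟨ε, hε, ev'⟩ : En j v d := ev
  have e1 : En C.j (v - dM (𝓡 4) w) (d - dM (𝓡 3) l) := tr fun p hp => by
    rw [pm_sub, Pi.sub_apply, ev' p (by linarith), dw, Sym24.pu_sub, Pi.sub_apply,
      ← Sym24.dM_pu (hl.sm _ trivial)]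
    refine congrArg _ (dM_congr ?_)
    filter_upwards [(isOpen_lt continuous_const continuous_snd).mem_nhds hp] with q hq
    rw [Pi.smul_apply', ft, stp_one (by norm_num) (le_of_lt hq), one_smul]
  have c1 := hb.prodMap (IsOE.id (IA := 𝓘(ℝ, ℝ)) (A := ℝ))
  have c2 := Orx52.Pos.cy (t := univ) cb (fun y _ => hb.loc y) (fun x _ => hasDerivAt_id x)
    fun _ _ => one_pos
  rw [univ_prod_univ] at c2
  have he := (Orx52.Pos.comp (hc.sh ho (-2)) c2 (fun y _ => oj.loc y) (fun y _ => c1.loc y)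
    (mapsTo_univ _ _)).comp (pos_rs hR) (fun y _ => (oj.comp c1).loc y)
    (fun y _ => (IsOE.of_diffeo _).loc y) (mapsTo_univ _ _)
  have eB : ∀ q, En j (z q + v) (β q + d) := fun q =>
    En.add (show En j (z q) (β q) from ez q) ⟨ε, hε, ev'⟩
  have hA : ∀ q (x : C.X), x ∈ S.A →
      pm (𝓡 4) (𝓡 4) id (z q + (v - dM (𝓡 4) w)) x = (z q + v) x := fun q x hx => by
    rw [pm_id, Pi.add_apply, Pi.sub_apply, dM_off oA.isClosed_compl
      (fun x hx => w1 x (not_not.1 hx)) (not_not.2 hx), sub_zero]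
    rfl
  obtain ⟨u, u1, u2, u3⟩ := S.final hN ho hO hO (hc.sh ho _) (fun _ => cb)
    ((same_id hO).mono (subset_univ _)) he (Z := fun q => z q + (v - dM (𝓡 4) w))
    (fun q => (hz q).add (hv.sub hw.z2)) (fun q => (hz q).add hv) eB
    (fun q => (tr fun p hp => by
      obtain ⟨δ, hδ, k⟩ := ez q
      exact k p (by linarith)).add e1)
    hA
    (fun q _ => SP.add (fun x y _ => hβ q x y trivial) fun x y _ => s1 x y) (fun q u hu x => by
      obtain ⟨δ, hδ, k⟩ := eB q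
      have h1 := cm_s4 hb u.im u.re x
      have h2 : s4 b u.im u.re (ft Y (stp 2⁻¹ 1) • pu l) =
          stp 2⁻¹ 1 u.re • pm (𝓡 2) (𝓡 3) (fun x => b (x, u.im)) l := funext fun x => by
        rw [s4, pm_fsmul, Pi.smul_apply', ← s4, s4_pu hb rfl, sl_pm hb]
        rfl
      have h3 : s4 b u.im u.re (pm (IR 3) (𝓡 4) j (dM (𝓡 4) w)) x = 0 := by
        rw [funext dw, s4, ← dM_pm ne0 h1 (sa _ trivial), ← s4, h2,
          dM_smul ne0 _ (SmAt.pm (cm_sl hb _ x) (hl.sm _ trivial)),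
          dM_pm ne0 (cm_sl hb _ x) (hl.sm _ trivial), ← sl_pm hb, s2, smul_zero]
      rw [rat, S.sz_Ω (k := ()) trivial]
      show 0 < tp _ (s4 b u.im u.re (pm (IR 3) (𝓡 4) j (z q + (v - dM (𝓡 4) w))) x) / _
      rw [← add_sub_assoc, pm_sub, s4, pm_sub, Pi.sub_apply, ← s4, ← s4, h3, sub_zero,
        s4_pu hb (k (_, u.re) ((neg_lt_zero.2 hδ).trans hu.1.1))]
      exact SP.add (hβ q) (fun x y _ => s1 x y) x _ trivial) hG
  exact ⟨v - dM (𝓡 4) w + u, (hv.sub hw.z2).add u1, by simpa using e1.add u2,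
    by simpa only [add_assoc] using u3⟩

/-- **`COL*`** -/
theorem UC.col (hN : NfStmt) {b : R × ℝ → Y} {o : Fm 3 Y} {O : Fm 4 C.X} {oR : Fm 2 R}
    (ho : Ori (𝓡 3) o) (hO : Ori (𝓡 4) O) (hR : Ori (𝓡 2) oR) (hc : Cy o O C.j) (hb : Box b)
    (cb : Cy oR o b) {A D D' : Set (Fm 3 Y)} (hA : ∀ a ∈ A, SP oR b a (Ioo (-1) 1))
    (hD : ∀ d ∈ D, ∃ d' ∈ D', Cg b d d') (h : UC C O A D) : UC C O A D' := by
  intro c ι _ ζ β h1 h2 h3
  choose μ m1 m2 m3 using fun q => exists_col (-3) (h1 q) (h3 q)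
  have ez : ∀ q, En (Bb31.sh (Bb31.sh C c) (-2)).j (ζ q + dM (𝓡 4) (μ q)) (β q) := fun q =>
    ⟨1, one_pos, fun p hp => pm_shift (Bb31.sh C c).oe (-2) (fun _ => rfl) (m3 q _ (by linarith))⟩
  have hz := fun q => (h1 q).add (m1 q).z2
  obtain ⟨d, hd, v, v1, v2, v3⟩ := h.sh c (-2) ι _ β hz h2 ez
  obtain ⟨_, hd', l, r, r1, l1, l2, l3, l4, rfl⟩ := hD d hd
  obtain ⟨ψ, p1, p2, p3⟩ := exists_psi r1
  have hb' : Box (b ∘ Prod.map id ψ) := hb.sub (Diffeomorph.refl _ _ _) p1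
  have e : ∀ a x y, sl y (pm (IR 2) (𝓡 3) (b ∘ Prod.map id ψ) a) x =
      sl (ψ y) (pm (IR 2) (𝓡 3) b a) x := fun a x y => (sl_pm hb' a).trans (sl_pm hb a).symm
  obtain ⟨u, u1, u2, u3⟩ := col_half (C := Bb31.sh C c) hN ho hO hR (hc.sh ho c) hb'
    (by have := cb.map hb IsOE.id (same_id hR) p1; exact this) hz ez
    (fun q => (hA _ (h2 q)).map hb (pos_rfl hR) p1 fun y _ => p2 y) v1 v2 l1
    (fun p hp => l2 p fun k => hp (by
      rw [Sep15.slab_sub b surjective_id]; exact Sep15.slab_mono b p3 k))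
    (fun x y => (e _ x y).trans (l3 _ _)) (fun x y => (e _ x y).trans (l4 _ _)) v3
  refine ⟨_, hd', u, u1, u2, Gd.of_ex m1 m2 ?_⟩
  simpa only [add_right_comm] using u3

end Crest.Agent.X212.Bb31
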