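import Crest.Agent.X212.Sep15.Defs
import Crest.Agent.X212.Sym24.Hop
import Crest.Agent.X212.Orx52.Prod
import Crest.Agent.X212.Dr59.Hom

/-!
# X212/Bb31/Defs (helper31): universal caps (real forms only)

* `Cy o O j` : `j^* O ~ dt ∧ o`;  `En j a b` : `j^* a = pr^* b` near the end;  `PP` : pairwise positive;
* `Gd C O ζ` : the family is pairwise positive on the cap after exact corrections;
* `UC0`, `UC C O A D` : universal cap;  `AA o β U τ`;  `SP` : positive slices;  `EXR` : real extension;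
* `BBR` : the real big ball property of a closed manifold;  the leaf statements.
-/

set_option autoImplicit false
set_option linter.unusedSectionVars false

open Set Filter Topology Function
open scoped ContDiff Manifold
open Crest.Agent.R208.F Crest.Agent.X212.Dr59 Crest.Agent.X212.Int54 Crest.Agent.X212.Cyl58
open Crest.Agent.X212.Sep15 (EE IR IC CM End Box slab px Sw Op Rg Bs Jo)
open Crest.Agent.X212.Sym24 (pu dt sl)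

noncomputable section

namespace Crest.Agent.X212.Bb31

/-- forms on a manifold with model `𝓡 n` -/
abbrev Fm (n : ℕ) (M : Type) : Type := M → Ext (EE n)

section gen

variable {n m : ℕ} {Y X : Type} [TopologicalSpace Y] [ChartedSpace (EE n) Y] [TopologicalSpace X]
  [ChartedSpace (EE m) X]

/-- `j^* O` and `dt ∧ o` have the same sign -/
def Cy (o : Fm n Y) (O : Fm m X) (j : Y × ℝ → X) : Prop :=
  SameOn (pm (IR n) (𝓡 m) j O) (dt (EE n) Y * pu o) univ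

/-- `j^* a = pr^* b` on `t > -ε` -/
def En (j : Y × ℝ → X) (a : Fm m X) (b : Fm n Y) : Prop :=
  ∃ ε > (0 : ℝ), ∀ p : Y × ℝ, -ε < p.2 → pm (IR n) (𝓡 m) j a p = pu b p

/-- the slices of `b^* B` over `S` are positive -/
def SP (o : Fm n Y) (b : Y × ℝ → X) (B : Fm m X) (S : Set ℝ) : Prop :=
  ∀ x, ∀ y ∈ S, 0 < rat o (sl y (pm (IR n) (𝓡 m) b B)) x

/-- pairwise positive on `S` -/
def PP {ι : Type} (O : Fm m X) (w : ι → Fm m X) (S : Set X) : Prop :=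
  ∀ q r, ∀ x ∈ S, 0 < rat O (w q * w r) x

/-- smooth one-forms -/
structure F1 (a : Fm m X) : Prop where
  sm : Sm (𝓡 m) univ a
  dg : Dg 1 univ a

/-- closed two-forms -/
abbrev Z2 (a : Fm m X) : Prop := Cl (𝓡 m) 2 univ a

end gen

variable {Y Y' : CM 3} {R : CM 2}

/-- `b^* τ` is a positive multiple of `dy` over `S` -/
def Dy (b : R × ℝ → Y) (τ : Fm 3 Y) (S : Set ℝ) : Prop :=
  ∀ x, ∀ y ∈ S, ∃ f > (0 : ℝ), pm (IR 2) (𝓡 3) b τ (x, y) = f • Sym24.dT (EE 2)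

/-- the same cap with the level `c` as level zero -/
def sh (C : End Y) (c : ℝ) : End Y where
  X := C.X
  j p := C.j (p.1, p.2 + c)
  isEnd := C.isEnd.shift c
  cpt := by
    convert C.isCompact_K c using 1
    rw [End.K]
    congr 1
    ext x
    constructor
    · rintro ⟨p, hp, rfl⟩
      exact ⟨(p.1, p.2 + c), ⟨mem_univ _, (lt_add_of_pos_left c hp.2 :)⟩, rfl⟩
    · rintro ⟨p, hp, rfl⟩
      exact ⟨(p.1, p.2 - c), ⟨mem_univ _, (sub_pos.2 (mem_Ioi.1 hp.2) :)⟩, by simp⟩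

/-- pairwise positive on the cap after subtracting `d` of forms which vanish on the boundary -/
def Gd (C : End Y) (O : Fm 4 C.X) {ι : Type} (ζ : ι → Fm 4 C.X) : Prop :=
  ∃ la : ι → Fm 4 C.X, (∀ q, F1 (la q)) ∧ (∀ q, sl 0 (pm (IR 3) (𝓡 4) C.j (la q)) = 0) ∧
    PP O (fun q => ζ q - dM (𝓡 4) (la q)) (C.K 0)

/-- every finite family with end values in `A` is good after adding one closed form with end value
in `D` -/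
def UC0 (C : End Y) (O : Fm 4 C.X) (A D : Set (Fm 3 Y)) : Prop :=
  ∀ (ι : Type) [Finite ι] (ζ : ι → Fm 4 C.X) (β : ι → Fm 3 Y), (∀ q, Z2 (ζ q)) → (∀ q, β q ∈ A) →
    (∀ q, En C.j (ζ q) (β q)) → ∃ d ∈ D, ∃ v, Z2 v ∧ En C.j v d ∧ Gd C O fun q => ζ q + v

/-- **universal cap** -/
def UC (C : End Y) (O : Fm 4 C.X) (A D : Set (Fm 3 Y)) : Prop := ∀ c, UC0 (sh C c) O A D

/-- closed forms which agree with `β` off a closed subset of `U` and are positive on `ker τ` in `U` -/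
def AA (o β : Fm 3 Y) (U : Set Y) (τ : Fm 3 Y) : Set (Fm 3 Y) :=
  {a | Z2 a ∧ (∃ C, IsClosed C ∧ C ⊆ U ∧ ∀ p ∉ C, a p = β p) ∧ ∀ p ∈ U, 0 < rat o (a * τ) p}

/-- closed two-forms extend over the cap -/
def EXR (C : End Y) : Prop := ∀ d : Fm 3 Y, Z2 d → ∃ u : Fm 4 C.X, Z2 u ∧ En C.j u d

/-- an oriented universal cap -/
def OC (C : End Y) (o : Fm 3 Y) (A : Set (Fm 3 Y)) : Prop :=
  ∃ O : Fm 4 C.X, Ori (𝓡 4) O ∧ Cy o O C.j ∧ UC C O A {0}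

/-- the form `g (t) dt ∧ τ` in the neck `n`, zero elsewhere -/
structure Ph {X : CM 4} (n : Y × ℝ → X) (g : ℝ → ℝ) (τ : Fm 3 Y) (φ : Fm 4 X) : Prop where
  sm : ContDiff ℝ ∞ g
  sp : tsupport g ⊆ Ioo (-1) 1
  one : ∫ t, g t = 1
  eq : ∀ p, pm (IR 3) (𝓡 4) n φ p = g p.2 • (Sym24.dT (EE 3) * pu τ p)
  off : ∀ x ∉ range n, φ x = 0

/-- **real big ball property**: every finite family of closed forms which restrict to the class of `β`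
is pairwise positive after adding one closed form vanishing near `Y` and exact forms; multiples of the
dual of the surface (`τ` is its dual in `Y`) may be added -/
def BBR {X : CM 4} (O : Fm 4 X) (n : Y × ℝ → X) (β τ : Fm 3 Y) : Prop :=
  ∀ (ι : Type) [Finite ι] (ζ : ι → Fm 4 X), (∀ q, Z2 (ζ q)) →
    (∀ q, Ex (𝓡 3) univ (sl 0 (pm (IR 3) (𝓡 4) n (ζ q)) - β)) →
    ∃ (v : Fm 4 X) (la : ι → Fm 4 X) (g : ℝ → ℝ) (φ : Fm 4 X), Z2 v ∧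
      sl 0 (pm (IR 3) (𝓡 4) n v) = 0 ∧ (∀ q, F1 (la q)) ∧ Ph n g τ φ ∧
      PP O (fun q => ζ q + v - dM (𝓡 4) (la q)) univ ∧
      ∀ q x, 0 ≤ rat O ((ζ q + v - dM (𝓡 4) (la q)) * φ) x

/-! ### the statements of the leaves -/

/-- `NF*` (helper24) -/
def NfStmt : Prop := ∀ (Y : CM 3) (C : End Y) (o : Fm 3 Y) (O : Fm 4 C.X), Ori (𝓡 3) o → Ori (𝓡 4) O →
  Cy o O C.j → ∀ (ι : Type) [Finite ι] (ζ : ι → Fm 4 C.X) (B : ι → Fm 3 Y), (∀ q, Z2 (ζ q)) →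
  (∀ q, En C.j (ζ q) (B q)) → Gd C O ζ →
  ∃ ν : ι → Fm 3 Y, (∀ q, F1 (ν q)) ∧ (∀ q r p, 0 < rat o (ν q * B r + ν r * B q) p) ∧
    ∀ α : ι → Fm 3 Y, (∀ q, F1 (α q)) → (∀ q r p, 0 < rat o (α q * B r + α r * B q) p) →
      ∀ T T' : ℝ, ∃ ε > (0 : ℝ), ∃ δ₀ > (0 : ℝ), ∀ δ, 0 < δ → δ ≤ δ₀ →
        ∃ la : ι → Fm 4 C.X, (∀ q, F1 (la q)) ∧
          (∀ q (p : Y × ℝ), -ε < p.2 →
            pm (IR 3) (𝓡 4) C.j (la q) p = (-(δ * (p.2 - T))) • pu (α q) p) ∧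
          PP O (fun q => ζ q - dM (𝓡 4) (la q)) (C.K T')

/-- `JOIN*` (helper24) -/
def JoinStmt : Prop := ∀ (Y : CM 3) (R : CM 2) (C₁ C₂ : End Y) (X : CM 4) (J : Jo C₁ C₂ X)
  (o β τ : Fm 3 Y) (A₁ A₂ : Set (Fm 3 Y)) (oR : Fm 2 R) (b : R × ℝ → Y) (k : ℝ → ℝ), Ori (𝓡 3) o →
  Ori (𝓡 2) oR → OC C₁ o A₁ → OC C₂ (-o) A₂ → β ∈ A₁ → β ∈ A₂ → Z2 β → Box b → Cy oR o b →
  SP oR b β (Ioo (-1) 1) → Cl (𝓡 3) 1 univ τ → (∀ y, 0 ≤ k y) →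
  (∀ p, pm (IR 2) (𝓡 3) b τ p = k p.2 • Sym24.dT (EE 2)) →
  (∀ p ∉ slab b (Icc (-2⁻¹) 2⁻¹), τ p = 0) →
  ∃ O : Fm 4 X, Ori (𝓡 4) O ∧ Cy o O (J.i₁ ∘ C₁.j) ∧ BBR O (J.i₁ ∘ C₁.j) β τ

/-- `BASE*` -/
def BaseStmt : Prop := ∀ (Y : CM 3) (R : CM 2) (C : End Y) (B : Bs R C) (o β τ : Fm 3 Y)
  (oR : Fm 2 R), Ori (𝓡 3) o → Ori (𝓡 2) oR →
  SameOn (pm ((𝓡 2).prod (𝓡 1)) (𝓡 3) B.f o) (Orx52.pr oR Orx52.oC) univ →
  (∀ p, ∃ f > (0 : ℝ), pm ((𝓡 2).prod (𝓡 1)) (𝓡 3) B.f τ p =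
    f • pm ((𝓡 2).prod (𝓡 1)) (𝓡 1) Prod.snd Orx52.oC p) → OC C o (AA o β univ τ)

/-- `ORI*`, three-dimensional part -/
def OriSwStmt : Prop := ∀ (Y Y' : CM 3) (R : CM 2) (b₁ b₂ : R × ℝ → Y) (b₁' b₂' : R × ℝ → Y')
  (S : Sw b₁ b₂ b₁' b₂') (o : Fm 3 Y) (oR : Fm 2 R), Ori (𝓡 3) o → Ori (𝓡 2) oR → Cy oR o b₁ →
  Cy oR o b₂ → ∃ o' : Fm 3 Y', Ori (𝓡 3) o' ∧ Cy oR o' b₁' ∧ Cy oR o' b₂' ∧
    SameOn (pm (𝓡 3) (𝓡 3) S.φ o') o S.φ.source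

/-- `ORI*`, four-dimensional part -/
def OriOpStmt : Prop := ∀ (Y Y' : CM 3) (R : CM 2) (b₁ b₂ : R × ℝ → Y) (b₁' b₂' : R × ℝ → Y')
  (S : Sw b₁ b₂ b₁' b₂') (C : End Y) (C' : End Y') (P : Op S C C') (o : Fm 3 Y) (o' : Fm 3 Y')
  (oR : Fm 2 R) (O : Fm 4 C.X), Ori (𝓡 3) o → Ori (𝓡 3) o' → Ori (𝓡 2) oR → Ori (𝓡 4) O →
  Cy oR o b₁ → Cy oR o b₂ → SameOn (pm (𝓡 3) (𝓡 3) S.φ o') o S.φ.source → Cy o O C.j →
  ∃ O' : Fm 4 C'.X, Ori (𝓡 4) O' ∧ Cy o' O' C'.j ∧ SameOn (pm (𝓡 4) (𝓡 4) P.i O') O P.i.source ∧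
    SameOn (pm IC (𝓡 4) P.e O') (Orx52.pr oR Orx52.oZ) univ

/-- `HEL*`, the three-dimensional inequality -/
def HelStmt : Prop := ∀ (Y : CM 3) (R : CM 2) (o β τ τ' : Fm 3 Y) (U U' : Set Y) (oR ν θ : Fm 2 R)
  (b : R × ℝ → Y) (k : R × ℝ → ℝ), Ori (𝓡 3) o → Ori (𝓡 2) oR → Box b → Cy oR o b →
  β ∈ AA o β U τ → Sm (𝓡 3) U τ → slab b (Icc (-1) 1) ⊆ U → U' ⊆ U →
  slab b (Ioo (-1) 1) ⊆ U' → Dy b τ' (Ioo (-1) 1) →
  (∀ p ∈ U', p ∉ slab b (Ioo (-1) 1) → ∃ f > (0 : ℝ), τ' p = f • τ p) →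
  Dg 1 univ ν → Cl (𝓡 2) 1 univ θ → (∀ x, ν x ≠ 0 → 0 < rat oR (θ * ν) x) → (∀ p, 0 < k p) →
  (∀ x, ∀ y ∈ Ioo (-1 : ℝ) 1, pm (IR 2) (𝓡 3) b τ (x, y) =
    k (x, y) • Sym24.dT (EE 2) + pu ν (x, y)) →
  ∀ (ι : Type) [Finite ι] (a : ι → Fm 3 Y), (∀ q, a q ∈ AA o β U' τ') →
    ∃ (κ : ℝ → ℝ) (d : Fm 3 Y), ContDiff ℝ ∞ κ ∧ tsupport κ ⊆ Ioo (-1) 1 ∧ Z2 d ∧
      (∀ p, pm (IR 2) (𝓡 3) b d p = κ p.2 • (Sym24.dT (EE 2) * pu θ p)) ∧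
      (∀ p ∉ range b, d p = 0) ∧ ∀ q, a q + d ∈ AA o β U τ

end Crest.Agent.X212.Bb31
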