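import Crest.Agent.X212.Bb31.Stp

/-!
# X212/Bb31/Fin (helper31): the symplectic forms on the new cap

`pos_box`, `Stp.final` : normalised forms on the new cap become pairwise positive.
-/

set_option autoImplicit false
set_option linter.unusedSectionVars false

open Set Filter Topology Function Module Metric
open scoped ContDiff Manifold
open Crest.Agent.R208 Crest.Agent.R208.F Crest.Agent.R208.FI Crest.Agent.X212.Dr59
  Crest.Agent.X212.Cyl58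
open Crest.Agent.X212.Int54 (tp rat Ori SameOn)
open Crest.Agent.X212.Sep15 (EE IR IC CM End Box slab)
open Crest.Agent.X212.Orx52 (oZ pr)
open Crest.Agent.X212.Sym24 (pu dt sl dT)

noncomputable section

namespace Crest.Agent.X212.Bb31

variable {Y Y' : CM 3} {R : CM 2} {κ κ' : Type}

theorem En.common {n m : ℕ} {Y X : Type} [TopologicalSpace Y] [ChartedSpace (EE n) Y]
    [TopologicalSpace X] [ChartedSpace (EE m) X] {j : Y × ℝ → X} {ι : Type} [Finite ι]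
    {a : ι → Fm m X} {b : ι → Fm n Y} (h : ∀ q, En j (a q) (b q)) :
    ∃ ε > (0 : ℝ), ∀ q (p : Y × ℝ), -ε < p.2 → pm (IR n) (𝓡 m) j (a q) p = pu (b q) p := by
  have k : ∀ q, ∀ᶠ ε : ℝ in 𝓝[>] 0, ∀ p : Y × ℝ, -ε < p.2 →
      pm (IR n) (𝓡 m) j (a q) p = pu (b q) p := fun q => by
    obtain ⟨ε, hε, k⟩ := h q
    filter_upwards [mem_nhdsWithin_of_mem_nhds (Iio_mem_nhds hε)] with δ hδ p hp
    exact k p ((neg_lt_neg hδ).trans hp)
  obtain ⟨ε, h1, h2⟩ := ((eventually_all.2 k).and self_mem_nhdsWithin).exists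
  exact ⟨ε, h2, h1⟩

theorem En.add {n m : ℕ} {Y X : Type} [TopologicalSpace Y] [ChartedSpace (EE n) Y]
    [TopologicalSpace X] [ChartedSpace (EE m) X] {j : Y × ℝ → X} {a a' : Fm m X} {b b' : Fm n Y}
    (h : En j a b) (h' : En j a' b') : En j (a + a') (b + b') := by
  obtain ⟨ε, hε, k⟩ := h
  obtain ⟨ε', hε', k'⟩ := h'
  refine ⟨min ε ε', lt_min hε hε', fun p hp => ?_⟩
  rw [pm_add, Sym24.pu_add, Pi.add_apply, Pi.add_apply,
    k p ((neg_le_neg (min_le_left _ _)).trans_lt hp), k' p ((neg_le_neg (min_le_right _ _)).trans_lt hp)]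

/-- positivity against a multiple of `dy` is positivity of the slice -/
theorem pos_box {b : R × ℝ → Y} (hb : Box b) {oR : Fm 2 R} {o τ B : Fm 3 Y} (hc : Cy oR o b)
    {x : R} {y f : ℝ} (hf : 0 < f) (h : pm (IR 2) (𝓡 3) b τ (x, y) = f • dT (EE 2)) :
    0 < rat o (τ * B) (b (x, y)) ↔ 0 < rat oR (sl y (pm (IR 2) (𝓡 3) b B)) x := by
  rw [pos_ld (hb.loc (x, y)) (hc _ trivial), Orx52.pos_rat, Orx52.pos_rat, pm_mul, Pi.mul_apply,
    Pi.mul_apply, h, smul_mul_assoc, map_smul, smul_eq_mul, mul_left_comm,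
    mul_pos_iff_of_pos_left hf]
  exact (Sym24.pos_dT_iff _ _).trans (by rw [Sym24.nc_dT_mul]; rfl)

theorem pos_box' {b : R × ℝ → Y} (hb : Box b) {oR : Fm 2 R} {o τ B : Fm 3 Y} (hc : Cy oR o b)
    {x : R} {y f : ℝ} (hf : 0 < f) (h : pm (IR 2) (𝓡 3) b τ (x, y) = f • dT (EE 2))
    (hB : IsDeg 2 (B (b (x, y)))) :
    0 < rat o (B * τ) (b (x, y)) ↔ 0 < rat oR (sl y (pm (IR 2) (𝓡 3) b B)) x := by
  rw [← pos_box hb hc hf h, rat, rat, Pi.mul_apply, Pi.mul_apply, Sym24.comm2 hB]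

/-- a cut-off and a form which is `dy` in the boxes -/
theorem Boxes.exists_dy [Finite κ] {b : κ → R × ℝ → Y} (hb : Boxes b) :
    ∃ (ρ : Y → ℝ) (σ : Fm 3 Y), ContMDiff (𝓡 3) 𝓘(ℝ, ℝ) ∞ ρ ∧ F1 σ ∧ (∀ p, ρ p ∈ Icc (0 : ℝ) 1) ∧
      (∀ k x y, |y| ≤ 3 / 4 → ρ (b k (x, y)) = 1) ∧ (∀ p ∉ slabs b (Ioo (-1) 1), ρ p = 0) ∧
      ∀ k x, ∀ y ∈ Ioo (-1 : ℝ) 1, pm (IR 2) (𝓡 3) (b k) σ (x, y) = dT (EE 2) := by
  obtain ⟨ρ, r1, r2, r3⟩ := hb.exists_fun (contDiff_bp (-(7 / 8)) (-(3 / 4)) (3 / 4) (7 / 8))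
    (r := -(7 / 8)) (s := 7 / 8) (c := 0) fun y hy => bp_zero (by norm_num) (by norm_num) hy
  obtain ⟨h, h1, h2, -⟩ := hb.exists_fun (contDiff_id.mul (contDiff_bp (-2) (-1) 1 2))
    (r := -2) (s := 2) (c := 0) fun y hy => by
      rw [bp_zero (by norm_num) (by norm_num) hy, mul_zero]
  refine ⟨ρ, df (𝓡 3) h, r1, ⟨sm_df fun p _ => h1 p, dg_df h⟩, fun p => ?_, fun k x y hy => ?_,
    fun p hp => r3 p fun k => hp (slabs_mono (Icc_subset_Ioo (by norm_num) (by norm_num)) k),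
    fun k x y hy => ?_⟩
  · by_cases hp : p ∈ slabs b (Icc (-(7 / 8)) (7 / 8))
    · obtain ⟨k, x, y, -, rfl⟩ := exists_of_slabs hp
      rw [r2]
      exact ⟨bp_nonneg _ _ _ _ _, bp_le_one _ _ _ _ _⟩
    · rw [r3 p hp]
      exact ⟨le_rfl, zero_le_one⟩
  · rw [r2]
    exact bp_one (by norm_num) (by norm_num) (abs_le.1 hy).1 (abs_le.1 hy).2
  · rw [pm_df (((hb.ob k).contMDiff _).mdifferentiableAt ne0) ((h1 _).mdifferentiableAt ne0),
      show h ∘ b k = _ from funext (h2 k), ← one_smul ℝ (dT (EE 2))]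
    refine Sym24.df_comp_snd (g := fun y => id y * bp (-2) (-1) 1 2 y) (p := (x, y))
      ((hasDerivAt_id y).congr_of_eventuallyEq ?_)
    filter_upwards [Ioo_mem_nhds hy.1 hy.2] with z hz
    rw [bp_one (by norm_num) (by norm_num) hz.1.le hz.2.le, mul_one]

namespace Stp

variable {C : End Y} {C' : End Y'} {b : κ → R × ℝ → Y} {b' : κ' → R × ℝ → Y'} (S : Stp C C' b b')

theorem cov₂ (x : C'.X) : x ∈ S.i '' S.A ∨
    ∃ p, S.e p = x ∧ p.2 ∈ S.V ∧ 2⁻¹ ≤ (S.w p.2).re ∧ |(S.w p.2).im| ≤ 2⁻¹ := by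
  refine or_iff_not_imp_left.2 fun hx => ?_
  obtain ⟨p, hp, rfl⟩ := (S.cov' x).resolve_left hx
  refine ⟨p, rfl, hp.2, ?_⟩
  by_contra h
  obtain ⟨k, hk⟩ : ∃ k, p.2 ∈ S.Ω k := by
    by_contra k
    obtain ⟨h1, h2⟩ := S.ax _ (not_exists.1 k)
    exact h ⟨le_trans (by norm_num) h2, by rw [h1]; norm_num⟩
  exact hx ⟨_, S.j_mem_A.2 fun ⟨h1, h2⟩ => h ⟨h2, abs_le.2 (S.bx.mem.1 h1)⟩, (S.eq k p hk).2.symm⟩

/-- the height coordinate -/
def q (p : R × ℂ) : R × ℝ := (p.1, (S.w p.2).im)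

theorem sre : ContDiff ℝ ∞ fun z => (S.w z).re := Complex.reCLM.contDiff.comp S.ws
theorem sim : ContDiff ℝ ∞ fun z => (S.w z).im := Complex.imCLM.contDiff.comp S.ws

theorem cm_q : ContMDiff IC (IR 2) ∞ S.q :=
  contMDiff_fst.prodMk (S.sim.contMDiff.comp contMDiff_snd)

theorem pm_bw_pu (k : κ) (a : Fm 3 Y) (p : R × ℂ) : pm IC (IR 3) (bw (b k) S.w) (pu a) p =
    pm IC (IR 2) S.q (pm (IR 2) (𝓡 3) (b k) a) p := by
  rw [← Sym24.pm_fst (I := 𝓡 3), pm_comp mdifferentiableAt_fst ((S.cm_bw k p).mdifferentiableAt ne0),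
    pm_comp (((S.bx.ob k).contMDiff _).mdifferentiableAt ne0) ((S.cm_q p).mdifferentiableAt ne0)]
  rfl

theorem pm_q_dt (p : R × ℂ) : pm IC (IR 2) S.q (dt (EE 2) R) p =
    ar R (df 𝓘(ℝ, ℂ) fun z => (S.w z).im) p := by
  rw [← Sym24.df_snd (I := 𝓡 2), pm_df ((S.cm_q p).mdifferentiableAt ne0) mdifferentiableAt_snd, ar,
    pm_df mdifferentiableAt_snd ((S.sim.contMDiff _).mdifferentiableAt ne0)]
  rfl

/-- the primitive `-δ (t - T) dy` on the base -/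
def l₀ (δ : ℝ) : ℂ → Ext ℂ :=
  (fun z => -(δ * ((S.w z).re - S.T))) • df 𝓘(ℝ, ℂ) fun z => (S.w z).im

theorem sm_l₀ (δ : ℝ) : Sm 𝓘(ℝ, ℂ) univ (S.l₀ δ) :=
  Sm.fsmul (fun _ _ => (contDiff_const.mul (S.sre.sub contDiff_const)).neg.contMDiff _)
    (sm_df fun _ _ => S.sim.contMDiff _)

theorem dM_l₀ (δ : ℝ) (z : ℂ) : dM 𝓘(ℝ, ℂ) (S.l₀ δ) z = -(δ * S.J z) • oZ z := by
  have h1 : ContDiff ℝ ∞ fun z => -(δ * ((S.w z).re - S.T)) :=
    (contDiff_const.mul (S.sre.sub contDiff_const)).neg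
  have h2 : df 𝓘(ℝ, ℂ) (fun z => -(δ * ((S.w z).re - S.T))) z =
      -δ • df 𝓘(ℝ, ℂ) (fun z => (S.w z).re) z := by
    have := ((((S.sre.differentiable (by simp) z).hasFDerivAt.sub_const S.T).const_mul δ).neg).fderiv
    rw [df, df, mf_eq_fderiv, mf_eq_fderiv, ← map_smul]
    refine congrArg io ?_
    rw [show (fun z => -(δ * ((S.w z).re - S.T))) = -fun z => δ * ((S.w z).re - S.T) from rfl, this]
    ext v
    simp
  rw [l₀, dM_fsmul ne0 ((h1.contMDiff z).mdifferentiableAt ne0) (smAt_df (S.sim.contMDiff z)),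
    dM_df (S.sim.contMDiff z), smul_zero, add_zero, h2, smul_mul_assoc,
    ← Orx52.pm_oZ ((S.ws.contMDiff z).mdifferentiableAt ne0), S.wJ, smul_smul, neg_mul]

theorem dM_ar_l₀ (δ : ℝ) (p : R × ℂ) :
    dM IC (ar R (S.l₀ δ)) p = -(δ * S.J p.2) • ar R oZ p := by
  rw [ar, dM_pm ne0 contMDiffAt_snd (S.sm_l₀ δ _ trivial), ← ar, ar_apply, ar_apply, S.dM_l₀, map_smul]

/-- **the last step** -/
theorem final [Finite κ] (hN : NfStmt) {o : Fm 3 Y} {O : Fm 4 C.X} {O' : Fm 4 C'.X} {oR : Fm 2 R}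
    (ho : Ori (𝓡 3) o) (hO : Ori (𝓡 4) O) (hO' : Ori (𝓡 4) O') (hc : Cy o O C.j)
    (hb : ∀ k, Cy oR o (b k)) (hi : SameOn (pm (𝓡 4) (𝓡 4) S.i O') O S.X₀)
    (he : SameOn (pm IC (𝓡 4) S.e O') (oP oR) univ) {ι : Type} [Finite ι] {Z : ι → Fm 4 C'.X}
    {z : ι → Fm 4 C.X} {B : ι → Fm 3 Y} {B' : ι → Fm 3 Y'} (hZ : ∀ q, Z2 (Z q))
    (hz : ∀ q, Z2 (z q)) (eB : ∀ q, En C.j (z q) (B q)) (eB' : ∀ q, En C'.j (Z q) (B' q))
    (hA : ∀ q, ∀ x ∈ S.A, pm (𝓡 4) (𝓡 4) S.i (Z q) x = z q x)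
    (hB : ∀ q k, SP oR (b k) (B q) (Ioo (-1) 1))
    (hF : ∀ q, FP oR (pm IC (𝓡 4) S.e (Z q)) {u | u ∈ S.V ∧ (S.w u).re ≤ S.T}) (hG : Gd C O z) :
    ∃ v : Fm 4 C'.X, Z2 v ∧ En C'.j v (0 : Fm 3 Y') ∧ Gd C' O' fun q => Z q + v := by
  obtain ⟨ν, n1, n2, n3⟩ := hN Y C o O ho hO hc ι z B hz eB hG
  obtain ⟨ρ, σ, r1, r2, r3, r4, r5, r6⟩ := S.bx.exists_dy
  let α : ι → Fm 3 Y := fun q => ρ • σ + (fun p => 1 - ρ p) • ν q
  have a1 : ∀ q, F1 (α q) := fun q =>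
    ⟨(r2.sm.fsmul fun p _ => r1 p).add ((n1 q).sm.fsmul fun p _ => contMDiffAt_const.sub (r1 p)),
      (r2.dg.fsmul _).add ((n1 q).dg.fsmul _)⟩
  have a2 : ∀ q r p, 0 < rat o (α q * B r + α r * B q) p := fun q r p => by
    have e : rat o (α q * B r + α r * B q) p = ρ p * (rat o (σ * B r) p + rat o (σ * B q) p) +
        (1 - ρ p) * rat o (ν q * B r + ν r * B q) p := by
      simp only [α, rat, Pi.add_apply, Pi.mul_apply, Pi.smul_apply', add_mul, smul_mul_assoc,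
        map_add, map_smul, smul_eq_mul]
      ring
    rw [e]
    by_cases hp : p ∈ slabs b (Ioo (-1) 1)
    · obtain ⟨k, x, y, hy, rfl⟩ := exists_of_slabs hp
      have k1 : ∀ q, 0 < rat o (σ * B q) (b k (x, y)) := fun q =>
        (pos_box (S.bx.ob k) (hb k) one_pos (by rw [r6 k x y hy, one_smul])).2 (hB q k x y hy)
      have k2 := add_pos (k1 r) (k1 q)
      have k3 := n2 q r (b k (x, y))
      rcases (r3 (b k (x, y))).1.eq_or_lt with h | h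
      · rw [← h]; simpa using k3
      · exact add_pos_of_pos_of_nonneg (mul_pos h k2) (mul_nonneg (sub_nonneg.2 (r3 _).2) k3.le)
    · rw [r5 p hp]; simpa using n2 q r p
  obtain ⟨ε₀, hε₀, δ, hδ, n4⟩ := n3 α a1 a2 S.T S.T
  obtain ⟨lN, l1, l2, l3⟩ := n4 δ hδ le_rfl
  have c1 : Sm IC univ (ar R (S.l₀ δ)) := (S.sm_l₀ δ).pm mp_snd'
  have c2 : Dg 1 univ (ar R (S.l₀ δ)) := ((dg_df _).fsmul _).pm (mapsTo_univ _ _)
  have hp : ∀ q, ∃ la : Fm 4 C'.X, F1 la ∧ (∀ x ∈ S.A, pm (𝓡 4) (𝓡 4) S.i la x = lN q x) ∧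
      ∀ p ∈ univ ×ˢ S.V, pm IC (𝓡 4) S.e la p = ar R (S.l₀ δ) p := fun q => by
    obtain ⟨la, h1, h2, h3, h4, -⟩ := exists_patch (a := lN q) (b := ar R (S.l₀ δ)) S.oA S.oV S.cov'
      fun x hx p hp e => by
        obtain ⟨k, hk, rfl⟩ := S.eq_bw (S.A_sub hx) e
        have m1 := (S.cm_bw k p).mdifferentiableAt ne0
        have m2 := (C.oe.contMDiff (bw (b k) S.w p)).mdifferentiableAt ne0
        refine ⟨C.j ∘ bw (b k) S.w, rfl, S.e_eq hk, m2.comp p m1, ?_⟩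
        have h5 : pm (IR 2) (𝓡 3) (b k) (α q) (S.q p) = dt (EE 2) R (S.q p) := by
          have h6 := abs_lt.1 hp.2.2
          simp only [α, pm_add, pm_fsmul, Pi.add_apply, Pi.smul_apply', comp_apply]
          rw [Stp.q, r4 k _ _ hp.2.2.le, r6 k _ _ ⟨by linarith [h6.1], by linarith [h6.2]⟩]
          simp [dt]
        rw [← pm_comp m2 m1, pm_apply, l2 q _ ((neg_lt_zero.2 hε₀).trans hp.2.1), map_smul,
          ← pm_apply, S.pm_bw_pu, pm_congr_right h5, S.pm_q_dt, l₀, ar_smul]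
        rfl
    exact ⟨la, ⟨h3 ((l1 q).sm.mono (subset_univ _)) (c1.mono (subset_univ _)),
      h4 1 ((l1 q).dg.mono (subset_univ _)) (c2.mono (subset_univ _))⟩, h1, h2⟩
  choose la m1 m2 m3 using hp
  obtain ⟨ε, hε, eZ⟩ := En.common eB'
  obtain ⟨T₁, t1, t2, t3⟩ := S.exists_margin hε
  obtain ⟨T₂, t4, t5⟩ := exists_between t2
  let g : ℂ → ℝ := fun u => bp 4⁻¹ 2⁻¹ T₁ T₂ (S.w u).re * bp (-(5 / 8)) (-2⁻¹) 2⁻¹ (5 / 8) (S.w u).im
  have g1 : ContDiff ℝ ∞ g := ((contDiff_bp _ _ _ _).comp S.sre).mul ((contDiff_bp _ _ _ _).comp S.sim)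
  have g2 : ∀ u, 0 ≤ g u := fun u => mul_nonneg (bp_nonneg _ _ _ _ _) (bp_nonneg _ _ _ _ _)
  obtain ⟨γ, y1, y2, -, -, y3⟩ := (OE.of_oe S.oe).exists_push (a := ar R (g • oZ))
    (isCompact_univ.prod (S.isCompact_rect 4⁻¹ T₂ (5 / 8))) (subset_univ _) fun p _ hp => by
      have : g p.2 = 0 := by
        rcases not_and_or.1 (fun h => hp ⟨trivial, h⟩) with h | h
        · exact mul_eq_zero_of_left (bp_zero (by norm_num) t4 h) _
        · exact mul_eq_zero_of_right _ (bp_zero (by norm_num) (by norm_num) fun k => h (abs_le.2 k))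
      rw [ar_smul, this, zero_smul]
  have y4 : Z2 γ := y3 2 (cl_ar g1)
  let W : ι → Fm 4 C'.X := fun q => Z q - dM (𝓡 4) (la q)
  have w1 : ∀ q, Sm (𝓡 4) univ (W q) := fun q => (hZ q).sm.sub (m1 q).sm.dM
  have w2 : ∀ q (p : R × ℂ), p.2 ∈ S.V → pm IC (𝓡 4) S.e (W q) p =
      pm IC (𝓡 4) S.e (Z q) p + (δ * S.J p.2) • ar R oZ p := fun q p hp => by
    rw [pm_sub, Pi.sub_apply, S.oV.pm_dM (m3 q) ((m1 q).sm.mono (subset_univ _)) ⟨trivial, hp⟩,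
      S.dM_ar_l₀, neg_smul, sub_neg_eq_add]
  have zz : ∀ p : R × ℂ, ar R oZ p * ar R oZ p = 0 := fun p =>
    ar_mul_ar (Orx52.dg_oZ (s := univ) _ trivial)
  have w3 : ∀ q (p : R × ℂ), p.2 ∈ S.V → rat (oP oR) (pm IC (𝓡 4) S.e (W q * γ)) p =
      g p.2 * rat oR (sz p.2 (pm IC (𝓡 4) S.e (Z q))) p.1 := fun q p hp => by
    rw [← rat_mul_ar, rat, rat, pm_mul, Pi.mul_apply, Pi.mul_apply, w2 q p hp, y1 p trivial, ar_smul,
      mul_smul_comm, add_mul, smul_mul_assoc, zz, smul_zero, add_zero, map_smul, smul_eq_mul,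
      mul_div_assoc]
  obtain ⟨n, -, hn⟩ := thurston (C'.isCompact_K 0) hO' (fun q => (w1 q).mono (subset_univ _))
    (y4.sm.mono (subset_univ _)) (y4.dg.mono (subset_univ _)) (w := W) (fun x _ => by
      by_cases h : x ∈ range S.e
      · obtain ⟨p, rfl⟩ := h
        refine zero_of_pm (a := γ * γ) (S.oe.loc p) ?_
        rw [pm_mul, Pi.mul_apply, y1 p trivial, ar_smul, smul_mul_smul_comm, zz, smul_zero]
      · rw [y2 x fun k => h (image_subset_range _ _ k), mul_zero])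
    (fun q x hx => by
      by_cases h : γ x = 0
      · simp [rat, h]
      · obtain ⟨p, hp, rfl⟩ := not_not.1 (mt (y2 x) h)
        have hV : p.2 ∈ S.V := ⟨lt_of_lt_of_le (by norm_num) hp.2.1.1, hp.2.2.trans_lt (by norm_num)⟩
        refine nonneg_ld (S.oe.loc p) (he p trivial) ?_
        rw [w3 q p hV]
        exact mul_nonneg (g2 _) (hF q _ ⟨hV, S.e_le hx⟩ _).le)
    (fun x hx => by
      rcases S.cov₂ x with ⟨x, h, rfl⟩ | ⟨p, rfl, hV, h1, h2⟩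
      · refine .inr fun q r => (pos_ld (S.oA.ld x h) (hi x (S.A_sub h)) _).2 ?_
        have k : ∀ q, pm (𝓡 4) (𝓡 4) S.i (W q) x = (z q - dM (𝓡 4) (lN q)) x := fun q => by
          rw [pm_sub, Pi.sub_apply, hA q x h, S.oA.pm_dM (m2 q) ((m1 q).sm.mono (subset_univ _)) h]
          rfl
        rw [rat, pm_mul, Pi.mul_apply, k, k]
        exact l3 q r x (S.i_mem (S.A_sub h) hx)
      have k := fun q => hF q _ ⟨hV, S.e_le hx⟩ p.1
      rcases le_total (S.w p.2).re T₁ with h3 | h3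
      · refine .inl fun q => (pos_ld (S.oe.loc p) (he p trivial) _).2 ?_
        rw [w3 q p hV, show g p.2 = 1 by
          simp only [g]
          rw [bp_one (by norm_num) t4 h1 h3,
            bp_one (by norm_num) (by norm_num) (abs_le.1 h2).1 (abs_le.1 h2).2, one_mul], one_mul]
        exact k q
      · refine .inr fun q r => (pos_ld (S.oe.loc p) (he p trivial) _).2 ?_
        obtain ⟨s, hs⟩ := S.gs _ (t1.trans_le h3)
        obtain ⟨l, e⟩ := S.ee _ (t1.trans_le h3)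
        have h4 : tp (EE 2 × ℂ) (pm IC (𝓡 4) S.e (Z q * Z r) p) = 0 := by
          have h5 := Orx52.tp_ld (C'.oe.loc (b' l (p.1, (S.w p.2).im), s)) (Z q * Z r)
          have h6 := t3 s (hs ▸ h3)
          rw [pm_mul, Pi.mul_apply, eZ q _ h6, eZ r _ h6, pu, pu, ← map_mul, Sym24.tp_up,
            ← e _ s hs] at h5
          rw [Orx52.tp_ld (S.oe.loc p), (mul_eq_zero.1 h5.symm).resolve_left
            (Orx52.jac_ld (C'.oe.loc _)), mul_zero]
        have h7 : rat (oP oR) (pm IC (𝓡 4) S.e (W q * W r)) p = δ * S.J p.2 *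
            (rat oR (sz p.2 (pm IC (𝓡 4) S.e (Z q))) p.1 +
              rat oR (sz p.2 (pm IC (𝓡 4) S.e (Z r))) p.1) := by
          rw [pm_mul, Pi.mul_apply] at h4
          have h8 : ar R oZ p * pm IC (𝓡 4) S.e (Z r) p = pm IC (𝓡 4) S.e (Z r) p * ar R oZ p :=
            Sym24.comm2 (((hZ r).dg _ trivial).pb _) _
          rw [← rat_mul_ar, ← rat_mul_ar, rat, rat, rat, pm_mul, Pi.mul_apply, Pi.mul_apply,
            Pi.mul_apply, w2 q p hV, w2 r p hV]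
          simp only [add_mul, mul_add, smul_mul_assoc, mul_smul_comm, zz, h8, smul_zero, map_add,
            map_smul, h4, smul_eq_mul, add_zero]
          ring
        rw [h7]
        exact mul_pos (mul_pos hδ (S.Jp _ (t1.trans_le h3))) (add_pos (k q) (k r)))
  refine ⟨n • γ, y4.smul n, S.en_zero (t1.trans t4).le t5 fun p' s h1 h2 => ?_, la, m1,
    fun q => funext fun p' => ?_, fun q r x hx => ?_⟩
  · rw [Pi.smul_apply, y2 _ ?_, smul_zero]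
    rintro ⟨p, hp, e⟩
    exact hp.2.1.2.not_gt (S.lev_e h2 e ▸ h1)
  · have k : la q (C'.j (p', 0)) = 0 := by
      rcases S.cov' (C'.j (p', 0)) with ⟨x, h, e⟩ | ⟨p, h, e⟩
      · obtain ⟨p, rfl⟩ := S.lev_i S.g0 (S.A_sub h) e
        rw [← e]
        refine zero_of_pm (S.oA.ld _ h) ((m2 q _ h).trans (zero_of_pm (C.oe.loc _) ?_))
        rw [l2 q _ ((neg_lt_zero.2 hε₀).trans (one_pos.trans S.g0))]
        simp [Stp.T]
      · rw [← e]
        refine zero_of_pm (S.oe.loc p) ((m3 q p h).trans ?_)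
        rw [l₀, ar_smul, S.lev_e S.g0 e]
        simp [Stp.T]
    rw [sl, pm_apply, k, map_zero, map_zero]
    rfl
  · simpa only [W, add_sub_right_comm] using hn q r x hx

end Stp

end Crest.Agent.X212.Bb31
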