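import Crest.Agent.X212.Bb31.Push
import Crest.Agent.X212.Int54.Prod

/-!
# X212/Bb31/Fp (helper31): forms on `R × ℂ`; a closed form is made positive on the fibres

`sz z c` (slice), `ar a` (pull-back from the base), `FP`, `rat_mul_ar`, `exists_fp`.
-/

set_option autoImplicit false
set_option linter.unusedSectionVars false

open Set Filter Topology Function Module Metric
open scoped ContDiff Manifold
open Crest.Agent.R208 Crest.Agent.R208.F Crest.Agent.R208.FI Crest.Agent.X212.Dr59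
  Crest.Agent.X212.Cyl58
open Crest.Agent.X212.Int54 (tp rat Ori SameOn)
open Crest.Agent.X212.Sep15 (EE IR IC CM)
open Crest.Agent.X212.Orx52 (oZ pr)

noncomputable section

namespace Crest.Agent.X212.Bb31

variable {R : CM 2}

/-- forms on `R × ℂ` -/
abbrev Fc (R : Type) : Type := R × ℂ → Ext (EE 2 × ℂ)

/-- the slice over `z` -/
def sz (z : ℂ) (c : Fc R) : Fm 2 R := pm (𝓡 2) IC (fun x => (x, z)) c

variable (R) in
/-- pull-back from the base -/
def ar (a : ℂ → Ext ℂ) : Fc R := pm IC 𝓘(ℝ, ℂ) Prod.snd a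

/-- the product orientation -/
abbrev oP (o : Fm 2 R) : Fc R := pr (E := EE 2) (E' := ℂ) o oZ

/-- positive on the fibres over `Q` -/
def FP (o : Fm 2 R) (c : Fc R) (Q : Set ℂ) : Prop := ∀ z ∈ Q, ∀ x, 0 < rat o (sz z c) x

theorem sz_apply (z : ℂ) (c : Fc R) (x : R) :
    sz z c x = pb (LinearMap.inl ℝ (EE 2) ℂ) (c (x, z)) := Int54.sl_apply z c x

theorem ar_apply (a : ℂ → Ext ℂ) (p : R × ℂ) :
    ar R a p = pb (LinearMap.snd ℝ (EE 2) ℂ) (a p.2) := Int54.pm_snd a p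

theorem cm_inl (z : ℂ) : ContMDiff (𝓡 2) IC ∞ fun x : R => (x, z) :=
  contMDiff_id.prodMk contMDiff_const

theorem sz_congr {z : ℂ} {c c' : Fc R} {x : R} (h : c (x, z) = c' (x, z)) : sz z c x = sz z c' x :=
  pm_congr_right h

theorem sz_add (z : ℂ) (c c' : Fc R) : sz z (c + c') = sz z c + sz z c' := pm_add _ _ _
theorem sz_sub (z : ℂ) (c c' : Fc R) : sz z (c - c') = sz z c - sz z c' := pm_sub _ _ _

theorem sz_pm {E : Type*} [NormedAddCommGroup E] [NormedSpace ℝ E] [FiniteDimensional ℝ E]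
    {H : Type*} [TopologicalSpace H] {I : ModelWithCorners ℝ E H} {M : Type*} [TopologicalSpace M]
    [ChartedSpace H M] {e : R × ℂ → M} {z : ℂ} {x : R} (he : MDifferentiableAt IC I e (x, z))
    (a : M → Ext E) : sz z (pm IC I e a) x = pm (𝓡 2) I (fun x => e (x, z)) a x :=
  pm_comp (f := fun x : R => (x, z)) he ((cm_inl z x).mdifferentiableAt ne0)

theorem sz_fst (z : ℂ) (a : Fm 2 R) : sz z (pm IC (𝓡 2) Prod.fst a) = a := funext fun x => by
  rw [sz_pm mdifferentiableAt_fst]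
  exact congrFun (pm_id a) x

theorem io_mul_oZ (z : ℂ) (l : Dual ℝ ℂ) : io l * oZ z = 0 :=
  Sym24.eq_zero_of_deg ((Orx52.dg_oZ (s := univ) z trivial).io_mul l) (by simp)

theorem oZ_ne (z : ℂ) : tp ℂ (oZ z) ≠ 0 := Orx52.ori_oZ.ne z

/-- a form against the area form of the base -/
theorem rat_mul_ar (o : Fm 2 R) (c : Fc R) (p : R × ℂ) :
    rat (oP o) (c * ar R oZ) p = rat o (sz p.2 c) p.1 := by
  rw [rat, Pi.mul_apply, ar_apply, Int54.tp_mul_snd (io_mul_oZ _), Orx52.tp_pr, ← sz_apply p.2 c p.1,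
    rat, show Int54.kap (EE 2) ℂ = Orx52.kap (EE 2) ℂ from rfl, ← mul_assoc,
    mul_div_mul_right _ _ (oZ_ne _), mul_div_mul_left _ _ Orx52.kap_ne]

theorem ar_mul_ar {a : ℂ → Ext ℂ} {p : R × ℂ} (h : IsDeg 2 (a p.2)) :
    ar R a p * ar R oZ p = 0 := by
  rw [ar_apply, ar_apply, ← map_mul, Sym24.eq_zero_of_deg
    (T.isDeg_mul h (Orx52.dg_oZ (s := univ) _ trivial)) (by simp), map_zero]

theorem ar_smul (g : ℂ → ℝ) (a : ℂ → Ext ℂ) (p : R × ℂ) : ar R (g • a) p = g p.2 • ar R a p :=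
  congrFun (pm_fsmul _ g a) p

theorem mp_snd' : Mp IC 𝓘(ℝ, ℂ) (univ : Set (R × ℂ)) univ Prod.snd :=
  ⟨fun _ _ => contMDiffAt_snd, mapsTo_univ _ _⟩

theorem cl_top {a : ℂ → Ext ℂ} (h : Sm 𝓘(ℝ, ℂ) univ a) (h' : Dg 2 univ a) : Cl 𝓘(ℝ, ℂ) 2 univ a :=
  ⟨h, h', fun z hz => Sym24.eq_zero_of_deg (h'.dM isOpen_univ z hz) (by simp)⟩

theorem cl_ar {g : ℂ → ℝ} (hg : ContDiff ℝ ∞ g) : Cl IC 2 univ (ar R (g • oZ)) :=
  (cl_top (Sm.fsmul (fun _ _ => hg.contMDiff.contMDiffAt) fun z _ => Orx52.ori_oZ.sm z)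
    (Orx52.dg_oZ.fsmul g)).pm mp_snd'

theorem cont_rat_sz {o : Fm 2 R} (ho : Ori (𝓡 2) o) {c : Fc R} (hc : Sm IC univ c) :
    Continuous fun p : R × ℂ => rat o (sz p.2 c) p.1 := by
  rw [← funext (rat_mul_ar o c)]
  have h := Orx52.ori_pr ho Orx52.ori_oZ
  exact continuous_iff_continuousAt.2 fun p => Orx52.contAt_rat (h.sm p) (h.ne p)
    ((hc p trivial).mul (SmAt.pm contMDiffAt_snd (Orx52.ori_oZ.sm _)))

theorem ex_sz {c : Fc R} (hc : Cl IC 2 univ c) (z w : ℂ) :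
    ∃ η : Fm 2 R, F1 η ∧ ∀ x, dM (𝓡 2) η x = sz z c x - sz w c x := by
  have h : Ht (𝓡 2) IC univ univ fun p : R × ℝ => (p.1, (1 - p.2) • w + p.2 • z) :=
    ⟨fun _ _ _ _ => (contMDiff_fst.prodMk (((contMDiff_const.sub contMDiff_snd).smul
      contMDiff_const).add (contMDiff_snd.smul contMDiff_const))) _, fun _ _ _ _ => trivial⟩
  have k := h.ex isOpen_univ hc
  simp only [sub_self, zero_smul, one_smul, zero_add, sub_zero, add_zero] at k
  obtain ⟨η, h1, h2, h3⟩ := k.deg (k := 1)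
    ((hc.dg.pm (mapsTo_univ _ _)).sub (hc.dg.pm (mapsTo_univ _ _)))
  exact ⟨η, ⟨h1, h2⟩, fun x => h3 x trivial⟩

/-- **a closed form which is positive on one fibre is positive on all fibres after an exact change** -/
theorem exists_fp {o : Fm 2 R} (ho : Ori (𝓡 2) o) {c : Fc R} (hc : Cl IC 2 univ c) {Q G W : Set ℂ}
    (hQ : IsCompact Q) (hG : IsOpen G) (hW : IsOpen W) (hp : FP o c G) (hne : G.Nonempty)
    (cov : Q ⊆ G ∪ W) : ∃ (la : Fc R) (Q' : Set ℂ), Sm IC univ la ∧ Dg 1 univ la ∧ IsCompact Q' ∧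
      Q' ⊆ W ∧ (∀ p : R × ℂ, p.2 ∉ Q' → la p = 0) ∧ FP o (c - dM IC la) Q := by
  classical
  obtain ⟨w, hw⟩ := hne
  choose η hη dη using fun z => ex_sz hc z w
  let η' : Option ℂ → Fm 2 R := fun i => i.elim 0 η
  have hη' : ∀ i, F1 (η' i) := fun i => by
    cases i
    · exact ⟨Sm.zero, Dg.zero⟩
    · exact hη _
  let V : Option ℂ → Set ℂ := fun i => {z | ∀ x, 0 < rat o (sz z c - dM (𝓡 2) (η' i)) x}
  have hV : ∀ z, V (some z) ∈ 𝓝 z := fun z => by
    have k := cont_rat_sz ho (c := c - pm IC (𝓡 2) Prod.fst (dM (𝓡 2) (η z)))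
      (hc.sm.sub ((hη z).sm.dM.pm ⟨fun _ _ => contMDiffAt_fst, mapsTo_univ _ _⟩))
    simp only [sz_sub, sz_fst] at k
    have := (isCompact_univ (X := R)).eventually_forall_of_forall_eventually (x₀ := z)
      (P := fun z' x => 0 < rat o (sz z' c - dM (𝓡 2) (η z)) x) fun x _ =>
      ((k.comp continuous_swap).continuousAt (x := (z, x))).eventually (lt_mem_nhds (by
        show 0 < rat o (sz z c - dM (𝓡 2) (η z)) x
        rw [rat, Pi.sub_apply, dη, sub_sub_cancel]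
        exact hp w hw x))
    exact this.mono fun z' h x => h x trivial
  let U : Option ℂ → Set ℂ := fun i => i.elim G fun z => interior (V (some z)) ∩ W ∩ ball z 1
  obtain ⟨S, ρ, r1, r2, r3, r4⟩ := Int54.exists_pou (I := 𝓘(ℝ, ℂ)) hQ U (fun i => by
    cases i
    · exact hG
    · exact (isOpen_interior.inter hW).inter isOpen_ball) fun z hz => mem_iUnion.2 <|
    (cov hz).elim (fun h => ⟨none, h⟩) fun h =>
      ⟨some z, ⟨mem_interior_iff_mem_nhds.2 (hV z), h⟩, mem_ball_self one_pos⟩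
  have UV : ∀ i, U i ⊆ V i := fun i z hz => by
    cases i
    · intro x
      simpa [η'] using hp z hz x
    · exact interior_subset hz.1.1
  let l : Option ℂ → Fc R := fun i => (fun p : R × ℂ => ρ i p.2) • pm IC (𝓡 2) Prod.fst (η' i)
  have sl : ∀ i, Sm IC univ (l i) := fun i => Sm.fsmul (fun p _ => (r1 i _).comp p contMDiffAt_snd)
    ((hη' i).sm.pm ⟨fun _ _ => contMDiffAt_fst, mapsTo_univ _ _⟩)
  have s1 : Sm IC univ (∑ i ∈ S, l i) := sm_sum fun i _ => sl i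
  refine ⟨∑ i ∈ S, l i, ⋃ z ∈ S.eraseNone, tsupport (ρ (some z)), s1,
    dg_sum fun i _ => ((hη' i).dg.pm (mapsTo_univ _ _)).fsmul _,
    S.eraseNone.isCompact_biUnion fun z _ => (isCompact_closedBall z 1).of_isClosed_subset
      (isClosed_tsupport _) fun y hy => ball_subset_closedBall (r2 (some z) hy).2,
    iUnion₂_subset fun z _ y hy => (r2 (some z) hy).1.2, fun p hp => ?_, fun z hz x => ?_⟩
  · rw [Finset.sum_apply]
    refine Finset.sum_eq_zero fun i hi => ?_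
    cases i with
    | none => simp [l, η']
    | some z =>
      have : ρ (some z) p.2 = 0 := image_eq_zero_of_notMem_tsupport fun h =>
        hp (mem_iUnion₂.2 ⟨z, Finset.mem_eraseNone.2 hi, h⟩)
      simp [l, this]
  · have e1 : sz z (∑ i ∈ S, l i) = ∑ i ∈ S, ρ i z • η' i := by
      rw [sz, pm_sum]
      refine Finset.sum_congr rfl fun i _ => ?_
      rw [pm_fsmul]
      exact congrArg (fun a => ρ i z • a) (sz_fst z (η' i))
    have e2 : sz z (dM IC (∑ i ∈ S, l i)) x = ∑ i ∈ S, ρ i z • dM (𝓡 2) (η' i) x := by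
      rw [sz, ← dM_pm ne0 (cm_inl z x) (s1 _ trivial), ← sz, e1,
        dM_sum ne0 fun i _ => ((hη' i).sm x trivial).smul _]
      exact Finset.sum_congr rfl fun i _ => dM_smul ne0 _ ((hη' i).sm x trivial)
    have e3 : rat o (sz z (c - dM IC (∑ i ∈ S, l i))) x =
        ∑ i ∈ S, ρ i z * rat o (sz z c - dM (𝓡 2) (η' i)) x := by
      simp only [sz_sub, rat, Pi.sub_apply, e2, map_sub, map_sum, map_smul, smul_eq_mul, sub_div,
        mul_sub, Finset.sum_sub_distrib, ← Finset.sum_mul, r4 z hz, one_mul, Finset.sum_div,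
        mul_div_assoc]
    rw [e3]
    have k : ∀ i, ρ i z ≠ 0 → 0 < ρ i z * rat o (sz z c - dM (𝓡 2) (η' i)) x := fun i h =>
      mul_pos ((r3 i z).lt_of_ne' h) (UV i (r2 i (subset_tsupport _ h)) x)
    obtain ⟨i, hi, h⟩ := Finset.exists_ne_zero_of_sum_ne_zero ((r4 z hz).trans_ne one_ne_zero)
    refine Finset.sum_pos' (fun i _ => ?_) ⟨i, hi, k i h⟩
    by_cases h : ρ i z = 0
    · rw [h, zero_mul]
    · exact (k i h).le

end Crest.Agent.X212.Bb31
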