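import Crest.Agent.X212.Bb31.Defs
import Crest.Agent.X212.Int54.Stokes

/-!
# X212/Bb31/Push (helper31): pushing forms along embeddings of open sets

`OE J I U f`, `exists_pf`, `exists_push` (compact support), `exists_patch`, `exists_htpy`,
`exists_large` (compactness), `thurston`.
-/

set_option autoImplicit false
set_option linter.unusedSectionVars false

open Set Filter Topology Function Module
open scoped ContDiff Manifold
open Crest.Agent.R208 Crest.Agent.R208.F Crest.Agent.R208.FI Crest.Agent.X212.Dr59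
  Crest.Agent.X212.Int54 Crest.Agent.X212.Cyl58

noncomputable section

namespace Crest.Agent.X212.Bb31

variable {E : Type*} [NormedAddCommGroup E] [NormedSpace ℝ E] [FiniteDimensional ℝ E]
  {H : Type*} [TopologicalSpace H] {I : ModelWithCorners ℝ E H} [I.Boundaryless]
  {M : Type*} [TopologicalSpace M] [ChartedSpace H M] [IsManifold I ∞ M]
  {E' : Type*} [NormedAddCommGroup E'] [NormedSpace ℝ E'] [FiniteDimensional ℝ E']
  {H' : Type*} [TopologicalSpace H'] {J : ModelWithCorners ℝ E' H'} [J.Boundaryless]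
  {N : Type*} [TopologicalSpace N] [ChartedSpace H' N] [IsManifold J ∞ N]
  {E'' : Type*} [NormedAddCommGroup E''] [NormedSpace ℝ E''] [FiniteDimensional ℝ E'']
  {H'' : Type*} [TopologicalSpace H''] {K : ModelWithCorners ℝ E'' H''} [K.Boundaryless]
  {P : Type*} [TopologicalSpace P] [ChartedSpace H'' P] [IsManifold K ∞ P]

/-! ### reflection of properties through a local diffeomorphism -/

section ld

variable {f : N → M} {y : N} {a b : M → Ext E}

theorem pb_inj (hf : IsLocalDiffeomorphAt J I ∞ f y) :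
    Injective (pb (mf J I f y : E' →ₗ[ℝ] E)) := by
  let A : E' ≃L[ℝ] E := hf.mfderivToContinuousLinearEquiv (by simp)
  have hA : mf J I f y = (A : E' →L[ℝ] E) := rfl
  refine LeftInverse.injective (g := pb ((A.symm : E →L[ℝ] E') : E →ₗ[ℝ] E')) fun c => ?_
  rw [hA, pb_comp]
  convert pb_id c
  ext v
  simp

theorem eq_of_pm (hf : IsLocalDiffeomorphAt J I ∞ f y) (h : pm J I f a y = pm J I f b y) :
    a (f y) = b (f y) := pb_inj hf h

theorem zero_of_pm (hf : IsLocalDiffeomorphAt J I ∞ f y) (h : pm J I f a y = 0) : a (f y) = 0 :=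
  pb_inj hf (h.trans (map_zero _).symm)

theorem isDeg_of_pm {k : ℕ} (hf : IsLocalDiffeomorphAt J I ∞ f y) (h : IsDeg k (pm J I f a y)) :
    IsDeg k (a (f y)) := by
  have : T.dpl k (a (f y)) = a (f y) := pb_inj hf (by
    rw [← T.dpl_pb]; exact T.dpl_of_isDeg h)
  rw [← this]
  exact T.isDeg_dpl _ _

theorem smAt_of_pm (hf : IsLocalDiffeomorphAt J I ∞ f y) (h : SmAt J (pm J I f a) y) :
    SmAt I a (f y) := by
  have e : hf.localInverse (f y) = y := hf.localInverse_left_inv hf.localInverse_mem_target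
  have c : Tendsto hf.localInverse (𝓝 (f y)) (𝓝 y) := by
    have := hf.localInverse_contMDiffAt.continuousAt
    rwa [ContinuousAt, e] at this
  refine (SmAt.pm hf.localInverse_contMDiffAt (by rwa [e])).congr ?_
  filter_upwards [hf.localInverse_eventuallyEq_right.eventually_nhds,
    Orx52.eventually_ld hf.localInverse_isLocalDiffeomorphAt, c.eventually (Orx52.eventually_ld hf)]
    with x h1 h2 h3
  rw [pm_comp (h3.mdifferentiableAt ne0) (h2.mdifferentiableAt ne0), pm_of_eventually_id h1]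

theorem smAt_of_pm' (hf : IsLocalDiffeomorphAt J I ∞ f y) {c : N → Ext E'}
    (e : pm J I f a =ᶠ[𝓝 y] c) (h : SmAt J c y) : SmAt I a (f y) := smAt_of_pm hf (h.congr e)

theorem pm_dM (hf : ContMDiffAt J I ∞ f y) (ha : SmAt I a (f y)) {c : N → Ext E'}
    (e : pm J I f a =ᶠ[𝓝 y] c) : pm J I f (dM I a) y = dM J c y := by
  rw [← dM_pm ne0 hf ha, dM_congr e]

theorem rat_ld (hf : IsLocalDiffeomorphAt J I ∞ f y) (o a : M → Ext E) :
    rat (pm J I f o) (pm J I f a) y = rat o a (f y) := by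
  rw [rat, Orx52.tp_ld hf, Orx52.tp_ld hf, mul_div_mul_left _ _ (Orx52.jac_ld hf), rat]

theorem rat_pos_of_same {o o' a : M → Ext E} {x : M} (h : 0 < tp E (o x) * tp E (o' x)) :
    0 < rat o a x ↔ 0 < rat o' a x := by
  rw [Orx52.pos_rat, Orx52.pos_rat]
  exact ⟨fun k => Orx52.pos_trans (mul_comm (tp E (o x)) _ ▸ h) k, fun k => Orx52.pos_trans h k⟩

theorem rat_nonneg_of_same {o o' a : M → Ext E} {x : M} (h : 0 < tp E (o x) * tp E (o' x))
    (k : 0 ≤ rat o' a x) : 0 ≤ rat o a x := by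
  rcases k.eq_or_lt with e | e
  · rw [rat, eq_comm, div_eq_zero_iff] at e
    rw [rat, e.resolve_right (right_ne_zero_of_mul h.ne'), zero_div]
  · exact ((rat_pos_of_same h).2 e).le

/-- positivity is read in an oriented parametrisation -/
theorem pos_ld (hf : IsLocalDiffeomorphAt J I ∞ f y) {o : M → Ext E} {o' : N → Ext E'}
    (h : 0 < tp E' (pm J I f o y) * tp E' (o' y)) (a : M → Ext E) :
    0 < rat o a (f y) ↔ 0 < rat o' (pm J I f a) y := by
  rw [← rat_ld hf, rat_pos_of_same h]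

theorem nonneg_ld (hf : IsLocalDiffeomorphAt J I ∞ f y) {o : M → Ext E} {o' : N → Ext E'}
    (h : 0 < tp E' (pm J I f o y) * tp E' (o' y)) {a : M → Ext E}
    (k : 0 ≤ rat o' (pm J I f a) y) : 0 ≤ rat o a (f y) := by
  rw [← rat_ld hf]
  exact rat_nonneg_of_same h k

end ld

/-! ### embeddings of open sets -/

/-- `f` embeds the open set `U` -/
structure OE (J : ModelWithCorners ℝ E' H') (I : ModelWithCorners ℝ E H) {N M : Type*}
    [TopologicalSpace N] [ChartedSpace H' N] [TopologicalSpace M] [ChartedSpace H M]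
    (U : Set N) (f : N → M) : Prop where
  op : IsOpen U
  ld : ∀ y ∈ U, IsLocalDiffeomorphAt J I ∞ f y
  inj : InjOn f U

section oe

variable {U V C : Set N} {f : N → M} {a : N → Ext E'} {k : ℕ}

theorem OE.of_oe (h : IsOE J I f) : OE J I univ f := ⟨isOpen_univ, fun y _ => h.loc y, h.inj.injOn⟩

theorem OE.of_pd (φ : PartialDiffeomorph J I N M ∞) : OE J I φ.source φ :=
  ⟨φ.open_source, fun _ hy => φ.isLocalDiffeomorphAt _ _ _ hy, φ.injOn⟩

theorem OE.mono (h : OE J I U f) (hV : IsOpen V) (s : V ⊆ U) : OE J I V f :=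
  ⟨hV, fun y hy => h.ld y (s hy), h.inj.mono s⟩

theorem OE.comp {g : P → N} (h : OE J I U f) (hg : IsOE K J g) : OE K I (g ⁻¹' U) (f ∘ g) :=
  ⟨h.op.preimage hg.continuous, fun z hz => ld_comp (h.ld _ hz) (hg.loc z),
    fun _ hz _ hw e => hg.inj (h.inj hz hw e)⟩

theorem OE.mp (h : OE J I U f) : Mp J I U univ f :=
  ⟨fun y hy => (h.ld y hy).contMDiffAt, mapsTo_univ _ _⟩

theorem OE.isOpen_image (h : OE J I U f) : IsOpen (f '' U) := by
  rw [isOpen_iff_mem_nhds]
  rintro _ ⟨y, hy, rfl⟩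
  have hf := h.ld y hy
  have e : hf.localInverse (f y) = y := hf.localInverse_left_inv hf.localInverse_mem_target
  have c : Tendsto hf.localInverse (𝓝 (f y)) (𝓝 y) := by
    have := hf.localInverse_contMDiffAt.continuousAt
    rwa [ContinuousAt, e] at this
  filter_upwards [hf.localInverse_eventuallyEq_right, c.eventually (h.op.mem_nhds hy)] with x h1 h2
  exact ⟨_, h2, h1⟩

theorem OE.isCompact_image (h : OE J I U f) (hC : IsCompact C) (s : C ⊆ U) : IsCompact (f '' C) :=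
  hC.image_of_continuousOn fun y hy => (h.ld y (s hy)).contMDiffAt.continuousAt.continuousWithinAt

/-- push-forward, extended by zero -/
theorem OE.exists_pf (h : OE J I U f) (a : N → Ext E') :
    ∃ A : M → Ext E, (∀ y ∈ U, pm J I f A y = a y) ∧ ∀ x ∉ f '' U, A x = 0 := by
  classical
  rcases isEmpty_or_nonempty N with _ | _
  · exact ⟨0, fun y _ => isEmptyElim y, fun _ _ => rfl⟩
  refine ⟨fun x => if x ∈ f '' U then pm I J (invFunOn f U) a x else 0, fun y hy => ?_,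
    fun x hx => if_neg hx⟩
  rw [← Orx52.pm_pm_inv (g := invFunOn f U) (h.ld y hy)
    (eventually_of_mem (h.op.mem_nhds hy) fun z hz => h.inj.leftInvOn_invFunOn hz) a]
  exact pm_congr_right (if_pos (mem_image_of_mem f hy))

theorem OE.sm (h : OE J I U f) {A : M → Ext E} (e : ∀ y ∈ U, pm J I f A y = a y) (ha : Sm J U a) :
    Sm I (f '' U) A := by
  rintro _ ⟨y, hy, rfl⟩
  exact smAt_of_pm' (h.ld y hy) (eventually_of_mem (h.op.mem_nhds hy) e) (ha y hy)

theorem OE.dg (h : OE J I U f) {A : M → Ext E} (e : ∀ y ∈ U, pm J I f A y = a y) (ha : Dg k U a) :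
    Dg k (f '' U) A := by
  rintro _ ⟨y, hy, rfl⟩
  exact isDeg_of_pm (h.ld y hy) (e y hy ▸ ha y hy)

theorem OE.pm_dM (h : OE J I U f) {A : M → Ext E} (e : ∀ y ∈ U, pm J I f A y = a y)
    (hA : Sm I (f '' U) A) {y : N} (hy : y ∈ U) : pm J I f (dM I A) y = dM J a y :=
  Bb31.pm_dM (h.ld y hy).contMDiffAt (hA _ (mem_image_of_mem f hy))
    (eventually_of_mem (h.op.mem_nhds hy) e)

theorem OE.cl (h : OE J I U f) {A : M → Ext E} (e : ∀ y ∈ U, pm J I f A y = a y)
    (ha : Cl J k U a) : Cl I k (f '' U) A :=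
  ⟨h.sm e ha.sm, h.dg e ha.dg, by
    rintro _ ⟨y, hy, rfl⟩
    exact zero_of_pm (h.ld y hy) ((h.pm_dM e (h.sm e ha.sm) hy).trans (ha.cl y hy))⟩

theorem sm_of_zero {W : Set M} (hW : IsOpen W) {A : M → Ext E} (h : ∀ x ∈ W, A x = 0) : Sm I W A :=
  Sm.zero.congr hW h

theorem cl_of_zero {W : Set M} (hW : IsOpen W) {A : M → Ext E} (h : ∀ x ∈ W, A x = 0) :
    Cl I k W A := Cl.zero.congr hW h

/-- push-forward of a form with compact support -/
theorem OE.exists_push [T2Space M] (h : OE J I U f) (hC : IsCompact C) (s : C ⊆ U)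
    (h0 : ∀ y ∈ U, y ∉ C → a y = 0) :
    ∃ A : M → Ext E, (∀ y ∈ U, pm J I f A y = a y) ∧ (∀ x ∉ f '' C, A x = 0) ∧
      (Sm J U a → Sm I univ A) ∧ (∀ k, Dg k U a → Dg k univ A) ∧ ∀ k, Cl J k U a → Cl I k univ A := by
  obtain ⟨A, e, z⟩ := h.exists_pf (I := I) a
  have z' : ∀ x ∉ f '' C, A x = 0 := fun x hx => by
    by_cases hU : x ∈ f '' U
    · obtain ⟨y, hy, rfl⟩ := hU
      exact zero_of_pm (h.ld y hy) ((e y hy).trans (h0 y hy fun k => hx (mem_image_of_mem f k)))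
    · exact z x hU
  have o := (h.isCompact_image hC s).isClosed.isOpen_compl
  have c : ∀ x, x ∈ f '' U ∨ x ∈ (f '' C)ᶜ := fun x =>
    (em (x ∈ f '' C)).imp_left fun k => image_mono s k
  exact ⟨A, e, z', fun ha x _ => (c x).elim (h.sm e ha x) (sm_of_zero o z' x),
    fun k ha x _ => (c x).elim (h.dg e ha x) fun hx => z' x hx ▸ IsDeg.zero,
    fun k ha => cl_of_loc fun x _ => (c x).elim (fun hx => ⟨_, hx, h.cl e ha⟩)
      fun hx => ⟨_, hx, cl_of_zero o z'⟩⟩

/-- two forms which correspond on the overlap -/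
theorem exists_patch {W : Set P} {g : P → M} {b : P → Ext E''} (h : OE J I U f) (h' : OE K I W g)
    (hc : ∀ x, x ∈ f '' U ∨ x ∈ g '' W)
    (e : ∀ y ∈ U, ∀ z ∈ W, f y = g z → ∃ T : P → N, T z = y ∧ g =ᶠ[𝓝 z] f ∘ T ∧
      MDifferentiableAt K J T z ∧ pm K J T a z = b z) :
    ∃ A : M → Ext E, (∀ y ∈ U, pm J I f A y = a y) ∧ (∀ z ∈ W, pm K I g A z = b z) ∧
      (Sm J U a → Sm K W b → Sm I univ A) ∧ (∀ k, Dg k U a → Dg k W b → Dg k univ A) ∧
      ∀ k, Cl J k U a → Cl K k W b → Cl I k univ A := by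
  classical
  obtain ⟨A, hA, -⟩ := h.exists_pf (I := I) a
  obtain ⟨B, hB, -⟩ := h'.exists_pf (I := I) b
  obtain ⟨D, d1, d2⟩ : ∃ D : M → Ext E, (∀ x ∈ f '' U, D x = A x) ∧ ∀ x ∉ f '' U, D x = B x :=
    ⟨fun x => if x ∈ f '' U then A x else B x, fun _ h => if_pos h, fun _ h => if_neg h⟩
  have e1 : ∀ y ∈ U, pm J I f D y = a y := fun y hy =>
    (pm_congr_right (d1 _ (mem_image_of_mem f hy))).trans (hA y hy)
  have e2 : ∀ z ∈ W, pm K I g D z = b z := fun z hz => by
    by_cases k : g z ∈ f '' U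
    · obtain ⟨y, hy, k⟩ := k
      obtain ⟨T, h1, h2, h3, h4⟩ := e y hy z hz k
      subst h1
      rw [pm_congr (b := D) h2 rfl, ← pm_comp ((h.ld _ hy).mdifferentiableAt ne0) h3, ← h4]
      exact pm_congr_right (e1 _ hy)
    · exact (pm_congr_right (d2 _ k)).trans (hB z hz)
  exact ⟨D, e1, e2, fun ha hb x _ => (hc x).elim (h.sm e1 ha x) (h'.sm e2 hb x),
    fun k ha hb x _ => (hc x).elim (h.dg e1 ha x) (h'.dg e2 hb x),
    fun k ha hb => cl_of_loc fun x _ => (hc x).elim (fun hx => ⟨_, hx, h.cl e1 ha⟩)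
      fun hx => ⟨_, hx, h'.cl e2 hb⟩⟩

/-- a form near a set is changed to a form given in a parametrisation -/
theorem exists_patch' {W : Set M} {b : M → Ext E} (h : OE J I U f) (hW : IsOpen W)
    (hc : ∀ x, x ∈ W ∨ x ∈ f '' U) (e : ∀ y ∈ U, f y ∈ W → pm J I f b y = a y) :
    ∃ A : M → Ext E, (∀ x ∈ W, A x = b x) ∧ (∀ y ∈ U, pm J I f A y = a y) ∧
      (Sm I W b → Sm J U a → Sm I univ A) ∧ (∀ k, Dg k W b → Dg k U a → Dg k univ A) ∧
      ∀ k, Cl I k W b → Cl J k U a → Cl I k univ A := by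
  have := exists_patch (a := b) (b := a) ((OE.of_oe (IsOE.id (IA := I))).mono hW (subset_univ W)) h
    (by simpa using hc) fun x hx y hy k => ⟨f, k.symm, EventuallyEq.rfl,
      (h.ld y hy).mdifferentiableAt ne0, e y hy (k ▸ hx)⟩
  simpa only [pm_id] using this

/-- a compactly supported homotopy in an embedded open set changes a closed form by an exact form -/
theorem OE.exists_htpy [T2Space M] [T2Space N] (h : OE J I U f) {G : N × ℝ → N} (hG : Ht J J U U G)
    (h0 : ∀ y ∈ U, G (y, 0) = y) (hC : IsCompact C) (s : C ⊆ U) (st : ∀ y ∉ C, ∀ t, G (y, t) = y)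
    {ζ : M → Ext E} (hζ : Cl I (k + 1) univ ζ) :
    ∃ μ : M → Ext E, Sm I univ μ ∧ Dg k univ μ ∧ (∀ x ∉ f '' C, μ x = 0) ∧
      ∀ y ∈ U, pm J I f (ζ + dM I μ) y = pm J J (fun y => G (y, 1)) (pm J I f ζ) y := by
  have hz := hζ.pm h.mp
  obtain ⟨μ, e, z, s1, s2, -⟩ := h.exists_push (I := I) (a := hk J J G (pm J I f ζ)) hC s
    fun y _ hy => by
      refine (intervalIntegral.integral_congr fun t _ => ?_).trans intervalIntegral.integral_zero
      have : G =ᶠ[𝓝 (y, t)] Prod.fst := by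
        filter_upwards [(hC.isClosed.isOpen_compl.preimage continuous_fst).mem_nhds
          (show (y, t) ∈ Prod.fst ⁻¹' Cᶜ from hy)] with p hp using st p.1 hp p.2
      show Sym24.nc _ = 0
      rw [pm_congr this rfl, Sym24.pm_fst]
      exact Sym24.nc_up _
  have sm := hG.sm_hk h.op hz.sm
  refine ⟨μ, s1 sm, s2 k (hG.dg_hk hz.dg), z, fun y hy => ?_⟩
  have d := hG.d_hk h.op hz.sm hy
  rw [hG.hk_eq_zero hz.cl hy, add_zero, pm_of_eventually_id (f := fun z => G (z, 0))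
    (eventually_of_mem (h.op.mem_nhds hy) h0)] at d
  rw [pm_add, Pi.add_apply, h.pm_dM e ((s1 sm).mono (subset_univ _)) hy, d, add_sub_cancel]

end oe

/-! ### compactness -/

theorem exists_large {X : Type*} [TopologicalSpace X] {S : Set X} (hS : IsCompact S) {F G : X → ℝ}
    (hF : ∀ x ∈ S, ContinuousAt F x) (hG : ∀ x ∈ S, ContinuousAt G x) (h0 : ∀ x ∈ S, 0 ≤ G x)
    (h : ∀ x ∈ S, 0 < G x ∨ 0 < F x) : ∀ᶠ n : ℝ in atTop, ∀ x ∈ S, 0 < F x + n * G x := by
  have k : ∀ x ∈ S, ∃ n : ℝ, ∀ᶠ y in 𝓝 x, 0 < F y + n * G y := fun x hx => by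
    obtain ⟨n, hn⟩ : ∃ n : ℝ, 0 < F x + n * G x := by
      rcases h x hx with h | h
      · refine ⟨(1 - F x) / G x, ?_⟩
        rw [div_mul_cancel₀ _ h.ne']
        linarith
      · exact ⟨0, by simpa using h⟩
    exact ⟨n, ((hF x hx).add ((hG x hx).const_mul n)).eventually (lt_mem_nhds hn)⟩
  refine hS.induction_on (p := fun s => ∀ᶠ n : ℝ in atTop, ∀ x ∈ s, x ∈ S → 0 < F x + n * G x)
    (by simp) (fun s t hst ht => ht.mono fun n hn x hx => hn x (hst hx))
    (fun s t hs ht => (hs.and ht).mono fun n hn x hx => hx.elim (hn.1 x) (hn.2 x))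
    (fun x hx => ?_) |>.mono fun n hn x hx => hn x hx hx
  obtain ⟨n, hn⟩ := k x hx
  refine ⟨_, mem_nhdsWithin_of_mem_nhds hn, (eventually_ge_atTop n).mono fun m hm y hy hy' => ?_⟩
  have := mul_le_mul_of_nonneg_right hm (h0 y hy')
  exact lt_of_lt_of_le hy (by linarith)

/-- **Thurston's trick** -/
theorem thurston {ι : Type} [Finite ι] {O γ : M → Ext E} {w : ι → M → Ext E} {S : Set M}
    (hS : IsCompact S) (hO : Ori I O) (hw : ∀ q, Sm I S (w q)) (hγ : Sm I S γ) (dγ : Dg 2 S γ)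
    (h2 : ∀ x ∈ S, γ x * γ x = 0) (h0 : ∀ q, ∀ x ∈ S, 0 ≤ rat O (w q * γ) x)
    (h : ∀ x ∈ S, (∀ q, 0 < rat O (w q * γ) x) ∨ ∀ q r, 0 < rat O (w q * w r) x) :
    ∃ n : ℝ, 0 ≤ n ∧ ∀ q r, ∀ x ∈ S, 0 < rat O ((w q + n • γ) * (w r + n • γ)) x := by
  have c : ∀ {a : M → Ext E}, Sm I S a → ∀ x ∈ S, ContinuousAt (rat O a) x := fun ha x hx =>
    Orx52.contAt_rat (hO.sm x) (hO.ne x) (ha x hx)
  have k : ∀ q r, ∀ᶠ n : ℝ in atTop, ∀ x ∈ S,
      0 < rat O (w q * w r) x + n * (rat O (w q * γ) x + rat O (w r * γ) x) := fun q r =>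
    exists_large hS (c ((hw q).mul (hw r)))
      (fun x hx => (c ((hw q).mul hγ) x hx).add (c ((hw r).mul hγ) x hx))
      (fun x hx => add_nonneg (h0 q x hx) (h0 r x hx))
      fun x hx => (h x hx).imp (fun k => add_pos (k q) (k r)) fun k => k q r
  obtain ⟨n, hn, h1⟩ := ((eventually_all.2 fun q => eventually_all.2 (k q)).and
    (eventually_ge_atTop 0)).exists
  refine ⟨n, h1, fun q r x hx => ?_⟩
  convert hn q r x hx using 1
  simp only [rat, Pi.mul_apply, Pi.add_apply, Pi.smul_apply, add_mul, mul_add, smul_mul_assoc,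
    mul_smul_comm, h2 x hx, ← Sym24.comm2 (dγ x hx) (w r x), map_add, map_smul, smul_zero,
    map_zero, smul_eq_mul]
  ring

end Crest.Agent.X212.Bb31
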