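import Crest.Agent.X212.Bb31.Col
import Crest.Agent.X212.Hel3.Hel

/-!
# X212/Bb31/Kil (helper31): the helical step of universal caps

`killStmt : KillStmt`.
-/

set_option autoImplicit false
set_option linter.unusedSectionVars false

open Set Filter Topology Function Module Metric
open scoped ContDiff Manifold
open Crest.Agent.R208 Crest.Agent.R208.F Crest.Agent.R208.FI Crest.Agent.X212.Dr59
  Crest.Agent.X212.Cyl58
open Crest.Agent.X212.Int54 (tp rat Ori SameOn)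
open Crest.Agent.X212.Sep15 (EE IR IC CM End Box slab px Sw Op Rg Lv)
open Crest.Agent.X212.Orx52 (cy)
open Crest.Agent.X212.Sym24 (pu dt sl dT ft)

noncomputable section

namespace Crest.Agent.X212.Bb31

variable {Y Y' : CM 3} {R : CM 2}

theorem exists_prim {κ : ℝ → ℝ} (hκ : ContDiff ℝ ∞ κ) (h : tsupport κ ⊆ Ioo (-1) 1) :
    ∃ (K : ℝ → ℝ) (r N : ℝ), ContDiff ℝ ∞ K ∧ deriv K = κ ∧ 2⁻¹ < r ∧ r < 1 ∧
      (∀ y ∉ Icc (-r) r, κ y = 0) ∧ (∀ y < -r, K y = 0) ∧ ∀ y > r, K y = N := by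
  obtain ⟨s, h1, h2⟩ := exists_pos_lt_subset_ball one_pos (isClosed_tsupport κ)
    (x := 0) (by rwa [Real.ball_eq_Ioo, zero_sub, zero_add])
  obtain ⟨r, h3, h4⟩ := exists_between (max_lt h1.2 (show (2⁻¹ : ℝ) < 1 by norm_num))
  obtain ⟨h3, h5⟩ := max_lt_iff.1 h3
  have z : ∀ y, r ≤ |y| → κ y = 0 := fun y hy => image_eq_zero_of_notMem_tsupport fun k =>
    (mem_ball_zero_iff.1 (h2 k)).not_ge (h3.le.trans hy)
  have d : deriv (fun y => ∫ t in (-r)..y, κ t) = κ := funext fun y => hκ.continuous.deriv_integral κ _ y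
  have i := fun a b => hκ.continuous.intervalIntegrable (μ := MeasureTheory.volume) a b
  refine ⟨_, r, ∫ t in (-r)..r, κ t, contDiff_infty_iff_deriv.2
    ⟨fun y => (hκ.continuous.integral_hasStrictDerivAt _ y).hasDerivAt.differentiableAt,
      d.symm ▸ hκ⟩, d, h5, h4, fun y hy => z y (not_lt.1 fun k => hy (abs_le.1 k.le)),
    fun y hy => ?_, fun y hy => ?_⟩
  · refine (intervalIntegral.integral_congr fun t ht => z t ?_).trans intervalIntegral.integral_zero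
    rw [uIcc_of_ge hy.le] at ht
    exact (le_neg.1 ht.2).trans (neg_le_abs t)
  · rw [← intervalIntegral.integral_add_adjacent_intervals (i (-r) r) (i r y), add_eq_left]
    refine (intervalIntegral.integral_congr fun t ht => z t ?_).trans intervalIntegral.integral_zero
    rw [uIcc_of_le hy.le] at ht
    exact ht.1.trans (le_abs_self t)

theorem deriv_stp {a b y : ℝ} (h : a < b) (N : ℝ) (hy : y ∉ Icc a b) :
    deriv (fun t => N * stp a b t) y = 0 := by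
  rcases not_and_or.1 hy with k | k
  · rw [EventuallyEq.deriv_eq (f := fun _ => 0) ((eventually_lt_nhds (not_le.1 k)).mono
      fun t ht => by simp [stp_zero h ht.le]), deriv_const]
  · rw [EventuallyEq.deriv_eq (f := fun _ => N) ((eventually_gt_nhds (not_le.1 k)).mono
      fun t ht => by simp [stp_one h ht.le]), deriv_const]

theorem exists_l {b : R × ℝ → Y} (hb : Box b) {a : R × ℝ → Ext (EE 2 × ℝ)} (sa : Sm (IR 2) univ a)
    (da : Dg 1 univ a) {r : ℝ} (h : ∀ p : R × ℝ, p.2 ∉ Icc (-r) r → a p = 0) :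
    ∃ l : Fm 3 Y, F1 l ∧ (∀ p ∉ slab b (Icc (-r) r), l p = 0) ∧
      ∀ p, pm (IR 2) (𝓡 3) b (dM (𝓡 3) l) p = dM (IR 2) a p := by
  obtain ⟨l, h1, h2, h3, h4, -⟩ := (OE.of_oe hb).exists_push (a := a)
    (isCompact_univ.prod isCompact_Icc) (subset_univ _) fun p _ hp => h p fun k => hp ⟨trivial, k⟩
  exact ⟨l, ⟨h3 sa, h4 1 da⟩, h2, fun p => (OE.of_oe hb).pm_dM h1 ((h3 sa).mono (subset_univ _)) trivial⟩

theorem dM_pu1 {g : ℝ → ℝ} (hg : ContDiff ℝ ∞ g) {θ : Fm 2 R} (hθ : Cl (𝓡 2) 1 univ θ) (p : R × ℝ) :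
    dM (IR 2) (ft R g • pu θ) p = deriv g p.2 • cy θ p := by
  rw [Sym24.dM_ft hg (Sym24.smAt_pu (hθ.sm _ trivial)), Sym24.dM_pu (hθ.sm _ trivial), pu, pu,
    hθ.cl _ trivial, map_zero, smul_zero, add_zero]
  rfl

theorem pm_map_cy (k : Df R) {σ : ℝ → ℝ} (hσ : Up σ univ) (θ : Fm 2 R) (p : R × ℝ) :
    pm (IR 2) (IR 2) (Prod.map k σ) (cy θ) p = deriv σ p.2 • cy (pm (𝓡 2) (𝓡 2) k θ) p := by
  have h1 := (k.contMDiff p.1).mdifferentiableAt ne0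
  have h2 := hσ.hasDerivAt (mem_univ p.2)
  rw [Orx52.pm_cy (h1.prodMap h2.differentiableAt.mdifferentiableAt),
    show Prod.snd ∘ Prod.map k σ = σ ∘ Prod.snd from rfl,
    show Prod.fst ∘ Prod.map k σ = k ∘ Prod.fst from rfl, Orx52.df_snd_comp h2,
    ← pm_comp h1 mdifferentiableAt_fst, Sym24.pm_fst, smul_mul_assoc]
  rfl

theorem dn_cy (θ : Fm 2 R) (p : R × ℝ) : Sym24.dn (cy θ p) = 0 := by
  rw [Orx52.cy, Pi.mul_apply, map_mul, dt, Sym24.dn_dT, zero_mul]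

/-- the end value is split into two parts which cancel after the surgery -/
theorem exists_split {b : R × ℝ → Y} (hb : Box b) {t : Df R} {σ₁ σ₂ : ℝ → ℝ} (L : Lv σ₁ σ₂)
    (r₁ : ∀ y, σ₁ y ∈ Ioo (-2⁻¹ : ℝ) 2⁻¹) (r₂ : ∀ y, σ₂ y ∈ Ioo (-2⁻¹ : ℝ) 2⁻¹) {c₁ c₂ : R × ℝ → Y'}
    (S : Sw (b ∘ Prod.map id σ₁) (b ∘ Prod.map t σ₂) c₁ c₂) {θ θ₁ : Fm 2 R}
    (hθ : Cl (𝓡 2) 1 univ θ) (h₁ : Cl (𝓡 2) 1 univ θ₁)
    (ex : Ex (𝓡 2) univ (θ - (θ₁ - pm (𝓡 2) (𝓡 2) t θ₁))) {κ : ℝ → ℝ} (hκ : ContDiff ℝ ∞ κ)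
    (sκ : tsupport κ ⊆ Ioo (-1) 1) {d : Fm 3 Y}
    (e : ∀ p, pm (IR 2) (𝓡 3) b d p = κ p.2 • (dT (EE 2) * pu θ p)) (off : ∀ p ∉ range b, d p = 0) :
    ∃ d₁ d₂, Cg b d d₁ ∧ Dt (two (b ∘ Prod.map id σ₁) (b ∘ Prod.map t σ₂)) S.φ d₁ d₂ ∧
      Cg c₂ d₂ 0 := by
  obtain ⟨K, r, N, k1, k2, k3, k4, k5, k6, k7⟩ := exists_prim hκ sκ
  set θ₂ := pm (𝓡 2) (𝓡 2) t θ₁ with hθ₂
  have h₂ : Cl (𝓡 2) 1 univ θ₂ := h₁.pm ⟨fun y _ => t.contMDiff y, mapsTo_univ _ _⟩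
  obtain ⟨f, f1, f2, f3⟩ := ex.deg (k := 0) (hθ.dg.sub (h₁.dg.sub h₂.dg))
  have m₁ := L.u₁.strictMono
  have m₂ := L.u₂.strictMono
  have a1 : σ₂ (-(7 / 8)) < σ₂ (-(3 / 4)) := m₂ (by norm_num)
  have b1 : σ₁ (3 / 4) < σ₁ (7 / 8) := m₁ (by norm_num)
  set A := fun y => N * stp (σ₂ (-(7 / 8))) (σ₂ (-(3 / 4))) y with hA
  set B := fun y => N * stp (σ₁ (3 / 4)) (σ₁ (7 / 8)) y with hB
  have sA : ContDiff ℝ ∞ A := contDiff_const.mul (contDiff_stp _ _)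
  have sB : ContDiff ℝ ∞ B := contDiff_const.mul (contDiff_stp _ _)
  have a2 : ∀ y, deriv A (σ₁ y) = 0 := fun y => deriv_stp a1 N fun h => (L.lt _ _).not_ge h.1
  have a3 : ∀ y, -(3 / 4) < y → deriv A (σ₂ y) = 0 := fun y hy =>
    deriv_stp a1 N fun h => (m₂ hy).not_ge h.2
  have b2 : ∀ y, deriv B (σ₂ y) = 0 := fun y => deriv_stp b1 N fun h => (L.lt _ _).not_ge h.2
  have b3 : ∀ y, y < 3 / 4 → deriv B (σ₁ y) = 0 := fun y hy =>
    deriv_stp b1 N fun h => (m₁ hy).not_ge h.1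
  have sp : ∀ {g : ℝ → ℝ} {c : Fm 2 R}, ContDiff ℝ ∞ g → Cl (𝓡 2) 1 univ c →
      Sm (IR 2) univ (ft R g • pu c) ∧ Dg 1 univ (ft R g • pu c) := fun hg hc =>
    ⟨fun p _ => Sym24.smAt_ft hg (Sym24.smAt_pu (hc.sm _ trivial)),
      fun p _ => (Sym24.isDeg_up (hc.dg _ trivial)).smul _⟩
  have s1 := sp (k1.sub sA) h₁
  have s2 := sp (k1.sub sB) h₂
  have s3 : Sm (IR 2) univ (cy f) := fun p _ => (Sym24.smAt_dt p).mul (Sym24.smAt_pu (f1 _ trivial))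
  have s4 : Sm (IR 2) univ (ft R κ • cy f) := fun p _ => Sym24.smAt_ft hκ (s3 p trivial)
  obtain ⟨l, l1, l2, l3⟩ := exists_l hb ((s1.1.sub s2.1).sub s4) ((s1.2.sub s2.2).sub fun p _ =>
    (Sym24.isDeg_dT_mul (Sym24.isDeg_up (f2 _ trivial))).smul _) (r := r) fun p hp => by
      have : K p.2 - A p.2 = 0 ∧ K p.2 - B p.2 = 0 := by
        rcases not_and_or.1 hp with h | h
        · simp only [hA, hB, k6 _ (not_le.1 h),
            stp_zero a1 (x := p.2) (by linarith [(r₂ (-(7 / 8))).1]),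
            stp_zero b1 (x := p.2) (by linarith [(r₁ (3 / 4)).1]), mul_zero, sub_self, and_self]
        · simp only [hA, hB, k7 _ (not_le.1 h),
            stp_one a1 (x := p.2) (by linarith [(r₂ (-(3 / 4))).2]),
            stp_one b1 (x := p.2) (by linarith [(r₁ (7 / 8)).2]), mul_one, sub_self, and_self]
      simp only [Pi.sub_apply, Pi.smul_apply', ft, this.1, this.2, k5 _ hp, zero_smul, sub_self]
  have l4 : ∀ p, pm (IR 2) (𝓡 3) b (dM (𝓡 3) l) p = (κ p.2 - deriv A p.2) • cy θ₁ p -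
      (κ p.2 - deriv B p.2) • cy θ₂ p + κ p.2 • cy (θ - (θ₁ - θ₂)) p := fun p => by
    rw [l3, dM_sub ne0 ((s1.1.sub s2.1) p trivial) (s4 p trivial),
      dM_sub ne0 (s1.1 p trivial) (s2.1 p trivial), dM_pu1 (k1.sub sA) h₁, dM_pu1 (k1.sub sB) h₂,
      Sym24.dM_ft hκ (s3 p trivial), Sym24.dM_dt_mul (Sym24.smAt_pu (f1 _ trivial)),
      Sym24.dM_pu (f1 _ trivial), show cy f p = dT (EE 2) * pu f p from rfl, Sym24.dT_dT, smul_zero, zero_add, smul_neg,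
      sub_neg_eq_add, deriv_fun_sub (k1.differentiable ne0 _) (sA.differentiable ne0 _),
      deriv_fun_sub (k1.differentiable ne0 _) (sB.differentiable ne0 _), k2, pu, f3 _ trivial]
    rfl
  have E1 : pm (IR 2) (𝓡 3) b (d - dM (𝓡 3) l) = ft R (deriv A) • cy θ₁ - ft R (deriv B) • cy θ₂ :=
    funext fun p => by
      rw [pm_sub, Pi.sub_apply, e, l4]
      simp only [Pi.sub_apply, Pi.mul_apply, Pi.smul_apply', ft, dt, Sym24.pu_sub, mul_sub]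
      module
  have E2 : ∀ p, (∀ q, b q = p → deriv A q.2 = 0 ∧ deriv B q.2 = 0) → (d - dM (𝓡 3) l) p = 0 :=
    fun p h => by
      by_cases hp : p ∈ range b
      · obtain ⟨q, rfl⟩ := hp
        refine zero_of_pm (hb.loc q) ?_
        simp [E1, ft, h q rfl]
      · rw [Pi.sub_apply, off p hp, dM_off (isCompact_slab hb _ _).isClosed l2
          fun k => hp (image_subset_range _ _ k), sub_zero]
  have E3 : ∀ (k : Df R) {σ : ℝ → ℝ}, Up σ univ → ∀ p, pm (IR 2) (𝓡 3) (b ∘ Prod.map k σ)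
      (d - dM (𝓡 3) l) p = (deriv A (σ p.2) * deriv σ p.2) • cy (pm (𝓡 2) (𝓡 2) k θ₁) p -
        (deriv B (σ p.2) * deriv σ p.2) • cy (pm (𝓡 2) (𝓡 2) k θ₂) p := fun k σ hσ p => by
    rw [← pm_comp ((hb.contMDiff _).mdifferentiableAt ne0)
      ((((IsOE.of_diffeo k).prodMap hσ.isOE).contMDiff p).mdifferentiableAt ne0), E1, pm_sub,
      pm_fsmul, pm_fsmul, Pi.sub_apply, Pi.smul_apply', Pi.smul_apply', pm_map_cy k hσ,
      pm_map_cy k hσ, smul_smul, smul_smul]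
    rfl
  have sC := (sA.comp L.u₂.contDiff).sub (sB.comp L.u₁.contDiff)
  obtain ⟨l', n1, n2, n3⟩ := exists_l S.o₂' (sp sC h₂).1 (sp sC h₂).2 (r := 7 / 8) fun p hp => by
    have : (A ∘ σ₂) p.2 - (B ∘ σ₁) p.2 = 0 := by
      rcases not_and_or.1 hp with h | h
      · simp only [hA, hB, comp_apply, stp_zero a1 (m₂.monotone (not_le.1 h).le),
          stp_zero b1 (m₁.monotone (show p.2 ≤ 3 / 4 by linarith)), sub_self]
      · simp only [hA, hB, comp_apply, stp_one a1 (m₂.monotone (show -(3 / 4) ≤ p.2 by linarith)),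
          stp_one b1 (m₁.monotone (not_le.1 h).le), sub_self]
    rw [Pi.smul_apply', ft, this, zero_smul]
  have n4 : ∀ p, pm (IR 2) (𝓡 3) c₂ (dM (𝓡 3) l') p =
      (deriv A (σ₂ p.2) * deriv σ₂ p.2 - deriv B (σ₁ p.2) * deriv σ₁ p.2) • cy θ₂ p := fun p => by
    rw [n3, dM_pu1 sC h₂, deriv_fun_sub ((sA.comp L.u₂.contDiff).differentiable ne0 _)
      ((sB.comp L.u₁.contDiff).differentiable ne0 _),
      deriv_comp _ (sA.differentiable ne0 _) (L.u₂.contDiff.differentiable ne0 _),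
      deriv_comp _ (sB.differentiable ne0 _) (L.u₁.contDiff.differentiable ne0 _)]
  have n5 : ∀ x y, sl y (pm (IR 2) (𝓡 3) c₂ (dM (𝓡 3) l')) x = 0 := fun x y => by
    rw [sl, n4, map_smul, dn_cy, smul_zero]
  have n6 : ∀ p ∉ range c₂, dM (𝓡 3) l' p = 0 := fun p hp =>
    dM_off (isCompact_slab S.o₂' _ _).isClosed n2 fun k => hp (image_subset_range _ _ k)
  have tr : ∀ {c : R × ℝ → Y} {q : R × ℝ}, Box c → c q ∈ S.φ.source → S.φ ∘ c =ᶠ[𝓝 q] c₂ →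
      pm (IR 2) (𝓡 3) c (pm (𝓡 3) (𝓡 3) S.φ (dM (𝓡 3) l')) q =
        pm (IR 2) (𝓡 3) c₂ (dM (𝓡 3) l') q := fun hc h1 h2 => by
    rw [pm_comp ((Orx52.ldp _ h1).mdifferentiableAt ne0) ((hc.contMDiff _).mdifferentiableAt ne0)]
    exact pm_congr h2 rfl
  refine ⟨_, dM (𝓡 3) l', ⟨l, r, k4, l1, l2, fun x y => ?_, fun x y => ?_, rfl⟩,
    ⟨fun p hp => E2 p ?_, fun k x y _ => ?_, fun p hp => ?_, fun p hp => ?_⟩,
    l', 7 / 8, by norm_num, n1, n2, n5, n5, (sub_self _).symm⟩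
  · rw [sl, e, map_smul, map_mul, Sym24.dn_dT, zero_mul, smul_zero]
  · simp only [sl, l4, map_add, map_sub, map_smul, dn_cy, smul_zero, sub_self, add_zero]
  · rintro q rfl
    rw [cm_slabs, mem_slab hb] at hp
    rcases hp with ⟨y, hy, e⟩ | ⟨y, hy, e⟩ <;> rw [← e]
    exacts [⟨a2 y, b3 y hy.2⟩, ⟨a3 y hy.1, b2 y⟩]
  · cases k
    · exact (congrArg _ (E3 t L.u₂ (x, y))).trans (by simp only [map_sub, map_smul, dn_cy]; simp)
    · exact (congrArg _ (E3 (Diffeomorph.refl _ _ _) L.u₁ (x, y))).trans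
        (by simp only [map_sub, map_smul, dn_cy]; simp)
  · replace hp := (mem_src (S := S)).2 hp
    by_cases h1 : ∃ q : R × ℝ, q.2 < 0 ∧ (b ∘ Prod.map t σ₂) q = p
    · obtain ⟨q, hq, rfl⟩ := h1
      refine eq_of_pm (S.o₂.loc q) ?_
      rw [tr S.o₂ hp (eventually_of_mem ((isOpen_lt continuous_snd continuous_const).mem_nhds hq)
        S.lo₂), n4, E3 t L.u₂, b2, b3 _ (by linarith), zero_mul, zero_mul, zero_smul, sub_zero,
        sub_zero]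
    by_cases h2 : ∃ q : R × ℝ, 0 < q.2 ∧ (b ∘ Prod.map id σ₁) q = p
    · obtain ⟨q, hq, rfl⟩ := h2
      refine eq_of_pm (S.o₁.loc q) ?_
      rw [tr S.o₁ hp (eventually_of_mem ((isOpen_lt continuous_const continuous_snd).mem_nhds hq)
        S.hi₁), n4, a3 _ (by linarith)]
      refine Eq.trans ?_ (E3 (Diffeomorph.refl _ _ _) L.u₁ q).symm
      rw [a2, zero_mul, zero_mul, zero_smul, zero_sub, zero_sub, neg_smul]
      exact congrArg (fun c => -(_ • Orx52.cy c q)) (pm_id θ₂).symm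
    rw [pm_apply, n6, map_zero, E2]
    · rintro ⟨x, y⟩ rfl
      refine ⟨deriv_stp a1 N fun h => h1 ?_, deriv_stp b1 N fun h => h2 ?_⟩
      · obtain ⟨y, hy, rfl⟩ := intermediate_value_Icc (by norm_num) L.u₂.continuous.continuousOn h
        exact ⟨(t.symm x, y), hy.2.trans_lt (by norm_num), by simp⟩
      · obtain ⟨y, hy, rfl⟩ := intermediate_value_Icc (by norm_num) L.u₁.continuous.continuousOn h
        exact ⟨(x, y), lt_of_lt_of_le (by norm_num) hy.1, rfl⟩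
    · rintro ⟨q, e⟩
      have h0 := S.b₂'_mem.1 (e ▸ S.φ.map_source hp)
      rcases h0.lt_or_gt with h | h
      · exact h1 ⟨q, h, S.φ.injOn (S.b₂_mem.2 h0) hp ((S.lo₂ q h).trans e)⟩
      · exact h2 ⟨q, h, S.φ.injOn (S.b₁_mem.2 h0) hp ((S.hi₁ q h).trans e)⟩
  · by_cases h : p ∈ range c₂
    · obtain ⟨q, rfl⟩ := h
      rcases lt_trichotomy q.2 0 with h | h | h
      · exact (hp _ (mem_src.1 (S.b₂_mem.2 h.ne)) (S.lo₂ q h)).elim
      · refine zero_of_pm (S.o₂'.loc q) ?_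
        rw [n4, a3 _ (by linarith), b3 _ (by linarith), zero_mul, zero_mul, sub_self, zero_smul]
      · exact (hp _ (mem_src.1 (S.b₁_mem.2 h.ne')) (S.hi₁ q h)).elim
    · exact n6 p h

/-- the trivial regluing -/
theorem exists_rg_refl {b : R × ℝ → Y} (hb : Box b) :
    ∃ G : Rg b (Diffeomorph.refl (𝓡 2) R ∞) b, (G.φ : Y → Y) = id := by
  obtain ⟨φ, h1, h2, h3⟩ := Sep15.exists_pd (IA := 𝓡 3) (IB := 𝓡 3) id (f := id)
    (Sep15.isClosed_slab hb (isCompact_singleton (x := (0 : ℝ)))).isOpen_compl (fun x _ => ld_id x)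
    (injOn_id _)
  exact ⟨⟨hb, hb, φ, h1, h2.trans (image_id _), fun p _ => h3 _, fun p _ => h3 _⟩, funext h3⟩

theorem mt_refl {b : R × ℝ → Y} {G : Rg b (Diffeomorph.refl (𝓡 2) R ∞) b} (e : (G.φ : Y → Y) = id)
    {oR : Fm 2 R} {o β τ : Fm 3 Y} {U : Set Y} (hR : Ori (𝓡 2) oR) (ho : Ori (𝓡 3) o)
    (hc : Cy oR o b) (sub : slab b (Ioo (-1) 1) ⊆ U) (dy : Dy b τ (Ioo (-1) 1)) :
    Mt G oR o β U τ o β U τ :=
  ⟨hR, ho, ho, hc, e ▸ (same_id ho).mono (subset_univ _), sub, sub, dy, dy, fun _ _ => by rw [e]; rfl,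
    fun _ _ => by rw [e, pm_id], fun _ _ _ => ⟨1, one_pos, by rw [e, pm_id, one_smul]⟩⟩

/-- **`KILL*`** -/
theorem killStmt : KillStmt := by
  intro P hP Y R o β τ τ' U U' oR ν θ θ₁ b k t hR ho hoR hb hc hβ hτ s1 s2 s3 dy off dν hθ pos hk eq
    ht h₁ ex ⟨C, hC, O, o1, o2, o3⟩
  obtain ⟨G, hG⟩ := exists_rg_refl hb
  have m := mt_refl (β := β) hG hoR ho hc s3 dy
  obtain ⟨σ₁, σ₂, L, r₁, r₂⟩ := Sep15.exists_lv (r := 2⁻¹) (by norm_num)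
  replace r₁ : ∀ y, σ₁ y ∈ Ioo (-2⁻¹ : ℝ) 2⁻¹ := fun y => ⟨(r₁ y).1, (r₁ y).2.trans (by norm_num)⟩
  replace r₂ : ∀ y, σ₂ y ∈ Ioo (-2⁻¹ : ℝ) 2⁻¹ := fun y => ⟨lt_trans (by norm_num) (r₂ y).1, (r₂ y).2⟩
  obtain ⟨M⟩ := Sep15.exists_cm G t (Diffeomorph.refl _ _ _) (fun _ => rfl) L
  obtain ⟨C₁, ⟨P₁⟩⟩ := Sep15.opStmt _ _ _ _ _ _ _ M.S₁ C
  obtain ⟨C₂, ⟨P₂⟩⟩ := Sep15.opStmt _ _ _ _ _ _ _ M.S₂ C₁
  have hs := pos_rfl hoR
  obtain ⟨o₁, k1, k2, k3, k4, k5, k6, k7, k8⟩ := exists_cm_ori M m hs ht hs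
  obtain ⟨O₁, a1, a2, a3⟩ := exists_op Sym24.nfStmt P₁ ho k1 hoR o1 k2 k3 k7 o2
  obtain ⟨O₂, b1, b2, b3⟩ := exists_op Sym24.nfStmt P₂ k1 ho hoR a1 k4 k6 k8 a2
  have u1 := o3.hel (A' := AA o β U' τ') (D := {d | ∃ d₁ d₂, Cg b d d₁ ∧
      Dt (two (b ∘ Prod.map id σ₁) (b ∘ Prod.map t σ₂)) M.S₁.φ d₁ d₂ ∧ Cg M.c₂ d₂ 0})
    (hP.exr _ _ hC) fun ι _ a ha => by
      obtain ⟨κ, d, d1, d2, d3, d4, d5, d6⟩ := Hel3.hel Y R o β τ τ' U U' oR ν θ b k ho hoR hb hc hβ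
        hτ s1 s2 s3 dy off dν hθ pos hk eq ι a ha
      exact ⟨d, exists_split hb L r₁ r₂ M.S₁ hθ h₁ ex d1 d2 d4 d5, d3, d6⟩
  have u2 := u1.col Sym24.nfStmt ho o1 hoR o2 hb hc (fun a => sp_of_aa hb hc dy s3)
    (D' := {d₁ | ∃ d₂ ∈ {d₂ | Cg M.c₂ d₂ 0},
      Dt (two (b ∘ Prod.map id σ₁) (b ∘ Prod.map t σ₂)) M.S₁.φ d₁ d₂})
    (by rintro d ⟨d₁, d₂, h1, h2, h3⟩; exact ⟨d₁, ⟨d₂, h3, h2⟩, h1⟩)
  have u3 := (a3 _ _ _ (fun _ h => h) u2).col Sym24.nfStmt k1 a1 hoR a2 M.S₁.o₂' k5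
    (fun a ha => ha.1 false) (D' := {0}) fun d h => ⟨0, rfl, h⟩
  exact ⟨C₂, hP.cm Y Y R oR b _ b G _ t σ₁ σ₂ M C C₁ C₂ hR hoR hs ht P₁ P₂ hC, O₂, b1, b2,
    (b3 _ _ {0} (forall_eq.2 ⟨0, rfl, dt_zero _ _⟩) u3).mono (mem_tr M m hs ht hs r₁ r₂) Subset.rfl⟩

end Crest.Agent.X212.Bb31
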