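import Crest.Agent.X212.Bb31.Fin

/-!
# X212/Bb31/Nrm (helper31): normalisation of forms and the step `Stp.op`

`exists_vcol` (vertical collapse), `Stp.norm`, `Tr`, `Dt`, `Stp.op`.
-/

set_option autoImplicit false
set_option linter.unusedSectionVars false

open Set Filter Topology Function Module Metric
open scoped ContDiff Manifold
open Crest.Agent.R208 Crest.Agent.R208.F Crest.Agent.R208.FI Crest.Agent.X212.Dr59
  Crest.Agent.X212.Cyl58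
open Crest.Agent.X212.Int54 (tp rat Ori SameOn)
open Crest.Agent.X212.Sep15 (EE IR IC CM End Box slab)
open Crest.Agent.X212.Orx52 (oZ pr)
open Crest.Agent.X212.Sym24 (pu dt sl dT)

noncomputable section

namespace Crest.Agent.X212.Bb31

variable {Y Y' : CM 3} {R : CM 2} {κ κ' : Type}

theorem dM_off {E H M : Type*} [NormedAddCommGroup E] [NormedSpace ℝ E] [FiniteDimensional ℝ E]
    [TopologicalSpace H] {I : ModelWithCorners ℝ E H} [I.Boundaryless] [TopologicalSpace M]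
    [ChartedSpace H M] [IsManifold I ∞ M] {K : Set M} (hK : IsClosed K) {a : M → Ext E} (h : ∀ x ∉ K, a x = 0) {x : M} (hx : x ∉ K) :
    dM I a x = 0 := by
  rw [dM_congr (b := 0) (eventually_of_mem (hK.isOpen_compl.mem_nhds hx) h), dM_zero]
  rfl

theorem F1.z2 {m : ℕ} {X : Type} [TopologicalSpace X] [ChartedSpace (EE m) X]
    [IsManifold (𝓡 m) ∞ X] {a : Fm m X} (h : F1 a) : Z2 (dM (𝓡 m) a) :=
  ⟨h.sm.dM, h.dg.dM isOpen_univ, fun x _ => (h.sm x trivial).dd⟩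

theorem F1.add {m : ℕ} {X : Type} [TopologicalSpace X] [ChartedSpace (EE m) X]
    [IsManifold (𝓡 m) ∞ X] {a b : Fm m X} (h : F1 a) (h' : F1 b) : F1 (a + b) := ⟨h.sm.add h'.sm, h.dg.add h'.dg⟩

theorem F1.sub {m : ℕ} {X : Type} [TopologicalSpace X] [ChartedSpace (EE m) X]
    [IsManifold (𝓡 m) ∞ X] {a b : Fm m X} (h : F1 a) (h' : F1 b) : F1 (a - b) := ⟨h.sm.sub h'.sm, h.dg.sub h'.dg⟩

theorem pu_zero : pu (0 : Fm 3 Y) = 0 := funext fun _ => map_zero _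

theorem En.dM {C : End Y} {a : Fm 4 C.X} (ha : F1 a) (h : En C.j a (0 : Fm 3 Y)) :
    En C.j (dM (𝓡 4) a) (0 : Fm 3 Y) := by
  obtain ⟨ε, hε, k⟩ := h
  refine ⟨ε, hε, fun p hp => ?_⟩
  rw [pm_dM (c := 0) (C.oe.contMDiff p) (ha.sm _ trivial) (eventually_of_mem
    ((isOpen_lt continuous_const continuous_snd).mem_nhds hp) fun q hq => by
      rw [k q hq, pu_zero]), dM_zero, pu_zero]

theorem Gd.of_ex {C : End Y} {O : Fm 4 C.X} {ι : Type} {ζ ν : ι → Fm 4 C.X} (hν : ∀ q, F1 (ν q))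
    (h0 : ∀ q, En C.j (ν q) (0 : Fm 3 Y)) (h : Gd C O fun q => ζ q + dM (𝓡 4) (ν q)) : Gd C O ζ := by
  obtain ⟨la, h1, h2, h3⟩ := h
  refine ⟨fun q => la q - ν q, fun q => (h1 q).sub (hν q), fun q => funext fun p => ?_, ?_⟩
  · obtain ⟨ε, hε, k⟩ := h0 q
    have := congrFun (h2 q) p
    rw [sl] at this ⊢
    rw [pm_sub, Pi.sub_apply, map_sub, this, k _ (neg_lt_zero.2 hε), pu_zero]
    simp
  · have e : ∀ q, ζ q - dM (𝓡 4) (la q - ν q) = ζ q + dM (𝓡 4) (ν q) - dM (𝓡 4) (la q) := fun q =>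
      funext fun x => by
        simp only [Pi.sub_apply, Pi.add_apply, dM_sub ne0 ((h1 q).sm x trivial) ((hν q).sm x trivial)]
        abel
    simpa only [e] using h3

/-! ### vertical maps, slices -/

/-- a vertical map -/
def vm (S : Y × ℝ → ℝ) (p : Y × ℝ) : Y × ℝ := (p.1, S p)

section vm

variable {S : Y × ℝ → ℝ} {a : Y × ℝ → Ext (EE 3 × ℝ)} {p : Y × ℝ}

theorem cm_vm (hS : ContMDiff (IR 3) 𝓘(ℝ, ℝ) ∞ S) : ContMDiff (IR 3) (IR 3) ∞ (vm S) :=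
  contMDiff_fst.prodMk hS

theorem pm_vm_pu (hS : ContMDiff (IR 3) 𝓘(ℝ, ℝ) ∞ S) {B : Fm 3 Y}
    (h : a (vm S p) = pu B (vm S p)) : pm (IR 3) (IR 3) (vm S) a p = pu B p := by
  rw [pm_congr_right h, ← Sym24.pm_fst (I := 𝓡 3),
    pm_comp mdifferentiableAt_fst ((cm_vm hS p).mdifferentiableAt ne0)]
  rfl

theorem pm_vm_const {s : Y → ℝ} (hs : ContMDiff (𝓡 3) 𝓘(ℝ, ℝ) ∞ s)
    (h : ∀ᶠ q in 𝓝 p, S q = s q.1) : pm (IR 3) (IR 3) (vm S) a p =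
      pu (pm (𝓡 3) (IR 3) (fun y => (y, s y)) a) p := by
  rw [← Sym24.pm_fst (I := 𝓡 3), pm_comp (g := fun y => (y, s y))
    ((contMDiff_id.prodMk hs _).mdifferentiableAt ne0) mdifferentiableAt_fst]
  exact pm_congr (h.mono fun q hq => Prod.ext rfl hq) rfl

/-- **vertical collapse** -/
theorem exists_vcol {X : Type} [TopologicalSpace X] [ChartedSpace (EE 4) X] [IsManifold (𝓡 4) ∞ X]
    [T2Space X] {f : Y × ℝ → X} {U K : Set (Y × ℝ)} (h : OE (IR 3) (𝓡 4) U f)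
    (hS : ContMDiff (IR 3) 𝓘(ℝ, ℝ) ∞ S) (hK : IsCompact K) (sK : K ⊆ U) (st : ∀ p ∉ K, S p = p.2)
    (mp : ∀ p ∈ U, ∀ θ ∈ Icc (0 : ℝ) 1, (p.1, p.2 + θ * (S p - p.2)) ∈ U) {ζ : Fm 4 X} (hζ : Z2 ζ) :
    ∃ μ : Fm 4 X, F1 μ ∧ (∀ x ∉ f '' K, μ x = 0) ∧ ∀ p ∈ U, pm (IR 3) (𝓡 4) f (ζ + dM (𝓡 4) μ) p =
      pm (IR 3) (IR 3) (vm S) (pm (IR 3) (𝓡 4) f ζ) p := by
  obtain ⟨μ, h1, h2, h3, h4⟩ := h.exists_htpy (k := 1)
    (G := fun z => (z.1.1, z.1.2 + z.2 * (S z.1 - z.1.2)))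
    ⟨fun _ _ _ _ => (contMDiff_fst.fst.prodMk (contMDiff_fst.snd.add (contMDiff_snd.mul
      ((hS.comp contMDiff_fst).sub contMDiff_fst.snd)))) _, mp⟩ (fun y _ => by simp) hK sK
    (fun y hy t => by simp [st y hy]) hζ
  refine ⟨μ, ⟨h1, h2⟩, h3, fun p hp => (h4 p hp).trans ?_⟩
  simp only [one_mul, add_sub_cancel]
  rfl

/-- the slice over the height `y` at the level `t` -/
def s4 (b : R × ℝ → Y) (y t : ℝ) (a : Y × ℝ → Ext (EE 3 × ℝ)) : Fm 2 R :=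
  pm (𝓡 2) (IR 3) (fun x => (b (x, y), t)) a

variable {b : R × ℝ → Y} {y t : ℝ} {x : R}

theorem cm_sl (hb : Box b) (y : ℝ) : ContMDiff (𝓡 2) (𝓡 3) ∞ fun x => b (x, y) :=
  hb.contMDiff.comp (contMDiff_id.prodMk contMDiff_const)

theorem cm_s4 (hb : Box b) (y t : ℝ) : ContMDiff (𝓡 2) (IR 3) ∞ fun x => (b (x, y), t) :=
  (cm_sl hb y).prodMk contMDiff_const

theorem sl_pm (hb : Box b) (B : Fm 3 Y) :
    sl y (pm (IR 2) (𝓡 3) b B) x = pm (𝓡 2) (𝓡 3) (fun x => b (x, y)) B x := by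
  rw [← Sym24.pm_inl (I := 𝓡 2)]
  exact pm_comp (f := fun x : R => (x, y)) ((hb.contMDiff _).mdifferentiableAt ne0)
    ((contMDiff_id.prodMk contMDiff_const x).mdifferentiableAt ne0)

theorem s4_pu (hb : Box b) {B : Fm 3 Y} (h : a (b (x, y), t) = pu B (b (x, y), t)) :
    s4 b y t a x = sl y (pm (IR 2) (𝓡 3) b B) x := by
  rw [s4, pm_congr_right (f := fun x => (b (x, y), t)) h, ← Sym24.pm_fst (I := 𝓡 3), sl_pm hb]
  exact pm_comp mdifferentiableAt_fst ((cm_s4 hb y t x).mdifferentiableAt ne0)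

theorem s4_vm (hb : Box b) (hS : ContMDiff (IR 3) 𝓘(ℝ, ℝ) ∞ S) {t' : ℝ}
    (h : ∀ x, S (b (x, y), t) = t') : s4 b y t (pm (IR 3) (IR 3) (vm S) a) x = s4 b y t' a x := by
  rw [s4, pm_comp ((cm_vm hS _).mdifferentiableAt ne0) ((cm_s4 hb y t x).mdifferentiableAt ne0)]
  exact pm_congr (Eventually.of_forall fun x => Prod.ext rfl (h x)) rfl

theorem sl_graph (hb : Box b) {s : Y → ℝ} (hs : ContMDiff (𝓡 3) 𝓘(ℝ, ℝ) ∞ s)
    (h : ∀ x, s (b (x, y)) = t) :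
    sl y (pm (IR 2) (𝓡 3) b (pm (𝓡 3) (IR 3) (fun p => (p, s p)) a)) x = s4 b y t a x := by
  rw [sl_pm hb, pm_comp (g := fun y => (y, s y)) ((contMDiff_id.prodMk hs _).mdifferentiableAt ne0)
    ((cm_sl hb y x).mdifferentiableAt ne0)]
  exact pm_congr (Eventually.of_forall fun x => Prod.ext rfl (h x)) rfl

theorem sz_eq {X : Type} [TopologicalSpace X] [ChartedSpace (EE 4) X] {e : R × ℂ → X}
    (he : IsOE IC (𝓡 4) e) (hb : Box b) {f : Y × ℝ → X} {z : ℂ}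
    (hf : MDifferentiableAt (IR 3) (𝓡 4) f (b (x, y), t)) (h : ∀ x, e (x, z) = f (b (x, y), t))
    (c : Fm 4 X) : sz z (pm IC (𝓡 4) e c) x = s4 b y t (pm (IR 3) (𝓡 4) f c) x := by
  rw [sz_pm ((he.contMDiff _).mdifferentiableAt ne0), s4,
    pm_comp (f := fun x => (b (x, y), t)) hf ((cm_s4 hb y t x).mdifferentiableAt ne0), funext h]
  rfl

end vm

namespace Stp

variable {C : End Y} {C' : End Y'} {b : κ → R × ℝ → Y} {b' : κ' → R × ℝ → Y'} (S : Stp C C' b b')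

theorem oj : OE (IR 3) (𝓡 4) (C.j ⁻¹' S.X₀) (S.i ∘ C.j) := S.oi.comp C.oe

theorem sz_Ω {k : κ} {z : ℂ} (hz : z ∈ S.Ω k) (c : Fm 4 C'.X) (x : R) : sz z (pm IC (𝓡 4) S.e c) x =
    s4 (b k) (S.w z).im (S.w z).re (pm (IR 3) (𝓡 4) (S.i ∘ C.j) c) x :=
  sz_eq S.oe (S.bx.ob k) ((S.oj.ld _ (S.eq k (x, z) hz).1).mdifferentiableAt ne0)
    (fun x => (S.eq k (x, z) hz).2) c

/-- product forms on the new end are product forms on the old end -/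
theorem pm_end [Finite κ] {a : Fm 4 C'.X} {β : Fm 3 Y'} {p : Y} (hp : p ∉ slabs b {0}) {s : ℝ}
    (hs : 1 < S.g s) (h : pm (IR 3) (𝓡 4) C'.j a (S.φ p, s) = pu β (S.φ p, s)) :
    pm (IR 3) (𝓡 4) (S.i ∘ C.j) a (p, S.g s) = pu (pm (𝓡 3) (𝓡 3) S.φ β) (p, S.g s) := by
  choose! gi hg using S.gs
  have o : IsOpen (slabs b {0})ᶜ := by
    rw [← Icc_self]
    exact (S.bx.isClosed 0 0).isOpen_compl
  let Ψ : Y × ℝ → Y' × ℝ := fun q => (S.φ q.1, gi q.2)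
  have ev : C'.j ∘ Ψ =ᶠ[𝓝 (p, S.g s)] S.i ∘ C.j := by
    filter_upwards [(o.prod isOpen_Ioi).mem_nhds (show (p, S.g s) ∈ _ ×ˢ Ioi 1 from ⟨hp, hs⟩)]
      with q hq
    exact (S.ej q.1 hq.1 _).trans (by rw [hg _ hq.2]; rfl)
  have h1 : MDifferentiableAt (IR 3) (IR 3) Ψ (p, S.g s) := (C'.oe.contMDiffAt_left
    ((S.oj.ld _ (S.mem_X₀ (p := (p, S.g s)) (.inl hp))).contMDiffAt.congr_of_eventuallyEq
      ev)).mdifferentiableAt ne0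
  have h2 : Ψ (p, S.g s) = (S.φ p, s) := Prod.ext rfl (S.gm.injective (hg _ hs))
  rw [← pm_congr (b := a) ev rfl, ← pm_comp ((C'.oe.contMDiff _).mdifferentiableAt ne0) h1,
    pm_congr_right (b := pu β) (by rw [h2]; exact h), ← Sym24.pm_fst (I := 𝓡 3),
    ← Sym24.pm_fst (I := 𝓡 3), pm_comp mdifferentiableAt_fst h1,
    pm_comp ((S.cm_φ hp).mdifferentiableAt ne0) mdifferentiableAt_fst]
  rfl

/-- **normalisation** -/
theorem norm [Finite κ] (hb' : ∀ k, Box (b' k)) (hw : Surjective S.w) {oR : Fm 2 R}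
    (hR : Ori (𝓡 2) oR) {ζ : Fm 4 C'.X} {β : Fm 3 Y'} (hζ : Z2 ζ) (e : En C'.j ζ β)
    (hβ : ∀ k, SP oR (b' k) β (Ioo (-1) 1)) :
    ∃ (ν : Fm 4 C'.X) (z : Fm 4 C.X) (B : Fm 3 Y), F1 ν ∧ En C'.j ν (0 : Fm 3 Y') ∧ Z2 z ∧ Z2 B ∧
      En C.j z B ∧ (∀ x ∈ S.A, pm (𝓡 4) (𝓡 4) S.i (ζ + dM (𝓡 4) ν) x = z x) ∧
      (∀ k, SP oR (b k) B (Ioo (-1) 1)) ∧
      (∀ p ∉ slabs b (Icc (-2⁻¹) 2⁻¹), B p = pm (𝓡 3) (𝓡 3) S.φ β p) ∧
      FP oR (pm IC (𝓡 4) S.e (ζ + dM (𝓡 4) ν)) {u | u ∈ S.V ∧ (S.w u).re ≤ S.T} := by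
  obtain ⟨ε, hε, e⟩ := e
  obtain ⟨T₁, t1, t2, t3⟩ := S.exists_margin hε
  obtain ⟨T₂, t4, t5⟩ := exists_between t2
  obtain ⟨T₃, t6, t7⟩ := exists_between t5
  have oe := OE.of_oe S.oe
  have hG : FP oR (pm IC (𝓡 4) S.e ζ) {z | T₁ < (S.w z).re ∧ |(S.w z).im| < 1} := fun z hz x => by
    obtain ⟨s, hs⟩ := S.gs _ (t1.trans hz.1)
    obtain ⟨k, hk⟩ := S.ee _ (t1.trans hz.1)
    rw [rat, sz_eq S.oe (hb' k) ((C'.oe.contMDiff _).mdifferentiableAt ne0) (fun x => hk x s hs),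
      s4_pu (hb' k) (e _ (t3 s (hs ▸ hz.1.le)))]
    exact hβ k x _ (abs_lt.1 hz.2)
  obtain ⟨la, Q', l1, l2, l3, l4, l5, l6⟩ := exists_fp hR (hζ.pm oe.mp)
    (S.isCompact_rect (-1) S.T (3 / 4)) (W := {z | (S.w z).re < T₂})
    ((isOpen_lt continuous_const S.cre).inter (isOpen_lt S.cim.abs continuous_const))
    (isOpen_lt S.cre continuous_const) hG
    (by obtain ⟨z, hz⟩ := hw T₂; exact ⟨z, by simpa [hz] using t4⟩)
    fun z hz => (lt_or_ge (S.w z).re T₂).symm.imp_left fun h =>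
      ⟨t4.trans_le h, hz.2.trans_lt (by norm_num)⟩
  obtain ⟨l, m1, m2, m3, m4, -⟩ := oe.exists_push (a := la) (isCompact_univ.prod l3) (subset_univ _)
    fun p _ hp => l5 p fun h => hp ⟨trivial, h⟩
  have hl : F1 l := ⟨m3 l1, m4 1 l2⟩
  set ζ₁ := ζ - dM (𝓡 4) l with hζ₁
  have z1 : Z2 ζ₁ := hζ.sub hl.z2
  have p1 : ∀ p, pm IC (𝓡 4) S.e ζ₁ p = (pm IC (𝓡 4) S.e ζ - dM IC la) p := fun p => by
    rw [pm_sub, Pi.sub_apply, oe.pm_dM m1 (hl.sm.mono (subset_univ _)) trivial]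
    rfl
  have fQ : ∀ z, (S.w z).re ∈ Icc (-1) S.T → |(S.w z).im| ≤ 3 / 4 → ∀ x,
      0 < rat oR (sz z (pm IC (𝓡 4) S.e ζ₁)) x := fun z h1 h2 x => by
    rw [rat, sz_congr (p1 _)]
    exact l6 z ⟨h1, h2⟩ x
  have fG : ∀ z, T₂ ≤ (S.w z).re → |(S.w z).im| < 1 → ∀ x,
      0 < rat oR (sz z (pm IC (𝓡 4) S.e ζ₁)) x := fun z h1 h2 x => by
    rw [rat, sz_congr (c' := pm IC (𝓡 4) S.e ζ) ((p1 _).trans (by
      rw [Pi.sub_apply, dM_off (l3.isClosed.preimage continuous_snd) l5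
        (x := (x, z)) fun h => (l4 h).not_ge h1, sub_zero]))]
    exact hG z ⟨t4.trans_le h1, h2⟩ x
  let f : ℝ → ℝ := fun y => 1 - bp (-2⁻¹) (-4⁻¹) 4⁻¹ 2⁻¹ y
  have f1 : ∀ y ∉ Icc (-2⁻¹ : ℝ) 2⁻¹, f y = 1 := fun y hy => by
    simp only [f]
    rw [bp_zero (by norm_num) (by norm_num) hy, sub_zero]
  obtain ⟨m, n1, n2, n3⟩ := S.bx.exists_fun (f := f) (contDiff_const.sub (contDiff_bp _ _ _ _)) f1
  have f2 : ∀ y, f y ∈ Icc (0 : ℝ) 1 := fun y =>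
    ⟨sub_nonneg.2 (bp_le_one _ _ _ _ _), sub_le_self _ (bp_nonneg _ _ _ _ _)⟩
  have n4 : ∀ p ∈ slabs b (Ioo (-4⁻¹) 4⁻¹), m p = 0 := fun p hp => by
    obtain ⟨k, x, y, hy, rfl⟩ := exists_of_slabs hp
    rw [n2]
    exact sub_eq_zero.2 (bp_one (by norm_num) (by norm_num) hy.1.le hy.2.le).symm
  have s0 : slabs b {0} ⊆ slabs b (Ioo (-4⁻¹) 4⁻¹) := slabs_mono (by norm_num)
  let k₁ := bp (-1) (-2⁻¹) 2⁻¹ (3 / 4)
  let k₂ := bp (-1) (-2⁻¹) T₂ T₃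
  let σ : ℝ → ℝ → ℝ := fun a t => t + a * k₂ t * (T₂ - t) - (1 - a) * k₁ t * t
  let Sf : Y × ℝ → ℝ := fun p => σ (m p.1) p.2
  have c1 : ∀ a b c d, ContMDiff (IR 3) 𝓘(ℝ, ℝ) ∞ fun p : Y × ℝ => bp a b c d p.2 := fun a b c d =>
    (contDiff_bp a b c d).contMDiff.comp contMDiff_snd
  have hS : ContMDiff (IR 3) 𝓘(ℝ, ℝ) ∞ Sf :=
    (contMDiff_snd.add (((n1.comp contMDiff_fst).mul (c1 _ _ _ _)).mul
      (contMDiff_const.sub contMDiff_snd))).sub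
      (((contMDiff_const.sub (n1.comp contMDiff_fst)).mul (c1 _ _ _ _)).mul contMDiff_snd)
  have mp : ∀ p ∈ C.j ⁻¹' S.X₀, ∀ θ ∈ Icc (0 : ℝ) 1,
      (p.1, p.2 + θ * (Sf p - p.2)) ∈ C.j ⁻¹' S.X₀ := fun p hp θ hθ => by
    by_cases h : p.1 ∈ slabs b {0}
    · have e1 : p.2 + θ * (Sf p - p.2) = (1 - θ * k₁ p.2) * p.2 := by
        simp only [Sf, σ, n4 _ (s0 h)]; ring
      rcases lt_or_ge p.2 1 with h1 | h1
      · refine S.mem_X₀ (.inr ?_)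
        have h2 : 0 ≤ θ * k₁ p.2 := mul_nonneg hθ.1 (bp_nonneg _ _ _ _ _)
        have h3 : θ * k₁ p.2 ≤ 1 := mul_le_one₀ hθ.2 (bp_nonneg _ _ _ _ _) (bp_le_one _ _ _ _ _)
        show _ + _ < (1 : ℝ)
        rw [e1]
        rcases le_total 0 p.2 with h4 | h4 <;> nlinarith
      · rw [e1, show k₁ p.2 = 0 from bp_right (by norm_num) (by linarith)]
        simpa using hp
    · exact S.mem_X₀ (.inl h)
  let K : Set (Y × ℝ) := univ ×ˢ Icc (-1) (3 / 4) ∪ (slabs b (Ioo (-4⁻¹) 4⁻¹))ᶜ ×ˢ Icc (-1) T₃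
  have cK : IsCompact K := (isCompact_univ.prod isCompact_Icc).union
    ((S.bx.isOpen isOpen_Ioo).isClosed_compl.isCompact.prod isCompact_Icc)
  have sK : K ⊆ C.j ⁻¹' S.X₀ := fun p hp => S.mem_X₀
    (hp.symm.imp (fun h k => h.1 (s0 k)) fun h => h.2.2.trans_lt (by norm_num))
  obtain ⟨μ, u1, u2, u3⟩ := exists_vcol S.oj hS cK sK (fun p hp => by
    have h1 : k₁ p.2 = 0 := bp_zero (by norm_num) (by norm_num) fun h => hp (.inl ⟨trivial, h⟩)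
    have h2 : m p.1 * k₂ p.2 = 0 := by
      by_cases h : p.1 ∈ slabs b (Ioo (-4⁻¹) 4⁻¹)
      · exact mul_eq_zero_of_left (n4 _ h) _
      · exact mul_eq_zero_of_right _ (bp_zero (by norm_num) t6 fun k => hp (.inr ⟨h, k⟩))
    simp [Sf, σ, h1, h2]) mp z1
  have eZ : ζ + dM (𝓡 4) (μ - l) = ζ₁ + dM (𝓡 4) μ := funext fun x => by
    simp only [hζ₁, Pi.sub_apply, Pi.add_apply, dM_sub ne0 (u1.sm x trivial) (hl.sm x trivial)]
    abel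
  have hZ : Z2 (ζ₁ + dM (𝓡 4) μ) := z1.add u1.z2
  have g1 : ContMDiff (𝓡 3) 𝓘(ℝ, ℝ) ∞ fun p => m p * T₂ := n1.mul contMDiff_const
  have g2 : ∀ p, C.j (p, m p * T₂) ∈ S.X₀ := fun p => S.mem_X₀ (p := (p, m p * T₂))
    (or_iff_not_imp_left.2 fun h => by simp [n4 _ (s0 (not_not.1 h))])
  set B := pm (𝓡 3) (IR 3) (fun p => (p, m p * T₂)) (pm (IR 3) (𝓡 4) (S.i ∘ C.j) ζ₁) with hB
  have zB : Z2 B := (z1.pm S.oj.mp).pm ⟨fun p _ => contMDiff_id.prodMk g1 p, fun p _ => g2 p⟩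
  have K1 : ∀ p : Y × ℝ, p.2 ∈ Ioo (-2⁻¹ : ℝ) 2⁻¹ →
      pm (IR 3) (𝓡 4) (S.i ∘ C.j) (ζ₁ + dM (𝓡 4) μ) p = pu B p := fun p hp => by
    rw [u3 p (S.mem_X₀ (.inr (hp.2.trans (by norm_num))))]
    refine pm_vm_const g1 ?_
    filter_upwards [(isOpen_Ioo.preimage continuous_snd).mem_nhds hp] with q hq
    simp only [Sf, σ, show k₁ q.2 = 1 from bp_one (by norm_num) (by norm_num) hq.1.le hq.2.le,
      show k₂ q.2 = 1 from bp_one (by norm_num) t6 hq.1.le (by linarith [hq.2])]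
    ring
  have K2 : ∀ p : Y × ℝ, p.1 ∉ slabs b (Icc (-2⁻¹) 2⁻¹) → -2⁻¹ < p.2 →
      pm (IR 3) (𝓡 4) (S.i ∘ C.j) (ζ₁ + dM (𝓡 4) μ) p = pu (pm (𝓡 3) (𝓡 3) S.φ β) p := fun p hp h => by
    have h0 : p.1 ∉ slabs b {0} := fun k => hp (slabs_mono (by norm_num) k)
    have h1 : T₂ ≤ Sf p := by
      simp only [Sf, σ, n3 _ hp]
      rcases le_total p.2 T₂ with h2 | h2
      · rw [show k₂ p.2 = 1 from bp_one (by norm_num) t6 h.le h2]; linarith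
      · nlinarith [show k₂ p.2 ≤ 1 from bp_le_one _ _ _ _ _]
    obtain ⟨s, hs⟩ := S.gs (Sf p) (by linarith)
    rw [u3 p (S.mem_X₀ (.inl h0))]
    refine pm_vm_pu hS ?_
    rw [vm, ← hs, ← S.pm_end h0 (a := ζ) (by linarith) (e _ (t3 s (by linarith)))]
    refine pm_congr_right ?_
    rw [hζ₁, Pi.sub_apply,
      dM_off (oe.isCompact_image (isCompact_univ.prod l3) (subset_univ _)).isClosed m2, sub_zero]
    rintro ⟨q, hq, e1⟩
    obtain ⟨k, -, e2⟩ := S.eq_bw (S.mem_X₀ (p := (p.1, S.g s)) (.inl h0)) e1.symm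
    have := congrArg Prod.snd (C.oe.inj e2)
    exact (l4 hq.2).not_ge (le_of_le_of_eq (hs ▸ h1) this)
  have K3 : ∀ p ∉ slabs b (Icc (-2⁻¹) 2⁻¹), B p = pm (𝓡 3) (𝓡 3) S.φ β p := fun p hp => by
    have := (K1 (p, 0) (by norm_num)).symm.trans (K2 (p, 0) hp (by norm_num))
    simpa only [pu, Sym24.dn_up] using congrArg Sym24.dn this
  obtain ⟨z, y1, y2, -, -, y3⟩ := exists_patch' (a := pu B)
    (b := pm (𝓡 4) (𝓡 4) S.i (ζ₁ + dM (𝓡 4) μ)) ((OE.of_oe C.oe).mono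
      (isOpen_lt (continuous_const (y := (-2⁻¹ : ℝ))) continuous_snd) (subset_univ _)) S.isOpen_A
    (fun x => or_iff_not_imp_left.2 fun h => by
      obtain ⟨p, hp, rfl⟩ := not_not.1 h
      exact ⟨p, lt_of_lt_of_le (show (-2⁻¹ : ℝ) < 2⁻¹ by norm_num) hp.2, rfl⟩)
    fun p hp h => by
      rw [pm_comp ((S.oA.ld _ h).mdifferentiableAt ne0) ((C.oe.contMDiff p).mdifferentiableAt ne0)]
      by_cases k : p.1 ∈ slabs b (Icc (-2⁻¹) 2⁻¹)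
      · exact K1 p ⟨hp, not_le.1 fun k' => S.j_mem_A.1 h ⟨k, k'⟩⟩
      · rw [K2 p k hp, pu, pu, K3 _ k]
  refine ⟨μ - l, z, B, u1.sub hl, S.en_zero (by linarith) t7 fun p' s h1 h2 => ?_,
    y3 2 (hZ.pm S.oA.mp) (Sym24.pm_fst (I := 𝓡 3) B ▸ zB.pm
      ⟨fun _ _ => contMDiffAt_fst, mapsTo_univ _ _⟩), zB, ⟨2⁻¹, by norm_num, y2⟩,
    fun x hx => by rw [eZ, y1 x hx], fun k x y hy => ?_, K3, fun u hu x => ?_⟩
  · rw [Pi.sub_apply, u2, m2, sub_zero]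
    · rintro ⟨p, hp, e1⟩
      linarith [S.lev_e h2 e1, show (S.w p.2).re < T₂ from l4 hp.2]
    · rintro ⟨p, hp, e1⟩
      obtain ⟨q, e2⟩ := S.lev_i h2 (sK hp) e1
      obtain rfl := C.oe.inj e2
      rcases hp with hp | hp <;> linarith [hp.2.2]
  · have h1 := g2 (b k (x, y))
    rw [n2] at h1
    obtain ⟨u, hu, e1⟩ := S.ont k x y _ h1
    have e2 := S.sz_Ω hu ζ₁ x
    rw [e1] at e2
    rw [rat, hB, sl_graph (S.bx.ob k) g1 (t := f y * T₂) (fun x => by rw [n2]), ← e2]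
    rcases le_or_gt |y| (3 / 4) with h | h
    · refine fQ u ?_ (by rwa [e1]) x
      rw [e1]
      constructor <;> nlinarith [(f2 y).1, (f2 y).2]
    · refine fG u ?_ (by rw [e1]; exact abs_lt.2 hy) x
      rw [e1, f1 y fun k => by linarith [abs_le.2 k]]
      exact (one_mul _).ge
  · rw [eZ]
    by_cases h : ∃ k, u ∈ S.Ω k
    · obtain ⟨k, hk⟩ := h
      have h0 := (S.eq k (x, u) hk).1
      have h1 := mp _ h0 1 ⟨zero_le_one, le_rfl⟩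
      have h2 : ∀ x, Sf (b k (x, (S.w u).im), (S.w u).re) = σ (f (S.w u).im) (S.w u).re :=
        fun x => by simp only [Sf, n2]
      simp only [bw, one_mul, add_sub_cancel, h2] at h1
      obtain ⟨u', hu', e1⟩ := S.ont k x _ _ h1
      have e2 := S.sz_Ω hu' ζ₁ x
      rw [e1] at e2
      rw [rat, S.sz_Ω hk, s4, pm_congr_right (f := fun x => (b k (x, (S.w u).im), (S.w u).re))
        (u3 _ h0), ← s4, s4_vm (S.bx.ob k) hS h2, ← e2]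
      refine fQ u' ?_ (by rw [e1]; exact hu.1.2.le) x
      rw [e1]
      have a1 := mul_nonneg (f2 (S.w u).im).1 (bp_nonneg (-1) (-2⁻¹) T₂ T₃ (S.w u).re)
      have a2 := mul_nonneg (sub_nonneg.2 (f2 (S.w u).im).2)
        (bp_nonneg (-1) (-2⁻¹) 2⁻¹ (3 / 4) (S.w u).re)
      have a3 := mul_le_of_le_one_right (f2 (S.w u).im).1 (bp_le_one (-1) (-2⁻¹) T₂ T₃ (S.w u).re)
      have a4 := mul_le_of_le_one_right (sub_nonneg.2 (f2 (S.w u).im).2)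
        (bp_le_one (-1) (-2⁻¹) 2⁻¹ (3 / 4) (S.w u).re)
      have a5 := hu.1.1
      have a6 := hu.2
      simp only [σ, k₁, k₂]
      constructor <;> nlinarith
    · rw [rat, sz_congr (c' := pm IC (𝓡 4) S.e ζ₁) (pm_congr_right (by
        rw [Pi.add_apply, dM_off (S.oj.isCompact_image cK sK).isClosed u2, add_zero]
        rintro ⟨p, hp, e1⟩
        exact h (S.hit _ (sK hp) _ e1)))]
      exact fQ u ⟨by linarith [hu.1.1], hu.2⟩ hu.1.2.le x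

end Stp

end Crest.Agent.X212.Bb31
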