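import Crest.Agent.X212.Bb31.Nrm
import Crest.Agent.X212.Sep15.Op
import Crest.Agent.X212.Orx52.Sw

/-!
# X212/Bb31/Opx (helper31): universal caps survive the surgery `Op`

`Tr`, `Dt`, `Stp.op`, `stpOp`, `UC.op`, `exists_op`.
-/

set_option autoImplicit false
set_option linter.unusedSectionVars false

open Set Filter Topology Function Module Metric
open scoped ContDiff Manifold
open Crest.Agent.R208 Crest.Agent.R208.F Crest.Agent.R208.FI Crest.Agent.X212.Dr59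
  Crest.Agent.X212.Cyl58
open Crest.Agent.X212.Int54 (tp rat Ori SameOn)
open Crest.Agent.X212.Sep15 (EE IR IC CM End Box slab Sw Op)
open Crest.Agent.X212.Orx52 (oZ pr)
open Crest.Agent.X212.Sym24 (pu dt sl dT)

noncomputable section

namespace Crest.Agent.X212.Bb31

variable {Y Y' : CM 3} {R : CM 2} {κ κ' : Type}

theorem Cy.map {n m : ℕ} {Y Y' X : Type} [TopologicalSpace Y] [ChartedSpace (EE n) Y]
    [IsManifold (𝓡 n) ∞ Y] [TopologicalSpace Y'] [ChartedSpace (EE n) Y'] [IsManifold (𝓡 n) ∞ Y']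
    [TopologicalSpace X] [ChartedSpace (EE m) X] [IsManifold (𝓡 m) ∞ X] {o : Fm n Y} {o' : Fm n Y'}
    {O : Fm m X} {j : Y × ℝ → X} (h : Cy o O j) (hj : IsOE (IR n) (𝓡 m) j) {f : Y' → Y}
    (hf : IsOE (𝓡 n) (𝓡 n) f) (p : SameOn (pm (𝓡 n) (𝓡 n) f o) o' univ) {g : ℝ → ℝ}
    (hg : Up g univ) : Cy o' O (j ∘ Prod.map f g) := by
  have k := Orx52.Pos.cy (I := 𝓡 n) (J := 𝓡 n) (s := univ) p (fun y _ => hf.loc y)
    (fun x hx => hg.hasDerivAt hx) fun x hx => (hg x hx).2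
  rw [univ_prod_univ] at k
  exact Orx52.Pos.comp (s := univ) h k (fun y _ => hj.loc y)
    (fun y _ => (hf.prodMap hg.isOE).loc y) (mapsTo_univ _ _)

theorem same_id {n : ℕ} {Y : Type} [TopologicalSpace Y] [ChartedSpace (EE n) Y]
    [IsManifold (𝓡 n) ∞ Y] {o : Fm n Y} (ho : Ori (𝓡 n) o) :
    SameOn (pm (𝓡 n) (𝓡 n) id o) o univ := by
  rw [pm_id]
  exact (Orx52.oriOn ho _).same

theorem Cy.sh {C : End Y} {o : Fm 3 Y} {O : Fm 4 C.X} (ho : Ori (𝓡 3) o) (h : Cy o O C.j) (c : ℝ) :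
    Cy o O (sh C c).j := by
  have := h.map C.oe IsOE.id (same_id ho) (Up.add_const c _)
  exact this

theorem UC.sh {C : End Y} {O : Fm 4 C.X} {A D : Set (Fm 3 Y)} (h : UC C O A D) (c : ℝ) :
    UC (sh C c) O A D := fun a => by
  have e : (Bb31.sh (Bb31.sh C c) a).j = (Bb31.sh C (a + c)).j :=
    funext fun p => congrArg (fun t => C.j (p.1, t)) (add_assoc _ _ _)
  have := h (a + c)
  unfold UC0 Gd End.K at this ⊢
  rw [e]
  exact this

theorem UC0.mono {C : End Y} {O : Fm 4 C.X} {A A' D D' : Set (Fm 3 Y)} (h : UC0 C O A D)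
    (hA : A' ⊆ A) (hD : D ⊆ D') : UC0 C O A' D' := fun ι _ ζ β h1 h2 h3 => by
  obtain ⟨d, hd, k⟩ := h ι ζ β h1 (fun q => hA (h2 q)) h3
  exact ⟨d, hD hd, k⟩

theorem UC.mono {C : End Y} {O : Fm 4 C.X} {A A' D D' : Set (Fm 3 Y)} (h : UC C O A D)
    (hA : A' ⊆ A) (hD : D ⊆ D') : UC C O A' D' := fun c => (h c).mono hA hD

theorem SP.add {b : R × ℝ → Y} {oR : Fm 2 R} {B d : Fm 3 Y} {s : Set ℝ} (h : SP oR b B s)
    (hd : ∀ x, ∀ y ∈ s, sl y (pm (IR 2) (𝓡 3) b d) x = 0) : SP oR b (B + d) s := fun x y hy => by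
  have := hd x y hy
  have k := h x y hy
  rw [rat, sl] at k ⊢
  rw [sl] at this
  rwa [pm_add, Pi.add_apply, map_add, this, add_zero]

/-- the forms which are admissible after a surgery -/
def Tr (oR : Fm 2 R) (b : κ → R × ℝ → Y) (b' : κ' → R × ℝ → Y') (φ : Y → Y')
    (A : Set (Fm 3 Y)) : Set (Fm 3 Y') :=
  {a | (∀ k, SP oR (b' k) a (Ioo (-1) 1)) ∧ ∀ B : Fm 3 Y, Z2 B →
    (∀ p ∉ slabs b (Icc (-2⁻¹) 2⁻¹), B p = pm (𝓡 3) (𝓡 3) φ a p) →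
    (∀ k, SP oR (b k) B (Ioo (-1) 1)) → B ∈ A}

/-- transport of a form which vanishes near the cores -/
structure Dt (b : κ → R × ℝ → Y) (φ : Y → Y') (d : Fm 3 Y) (d' : Fm 3 Y') : Prop where
  zer : ∀ p ∈ slabs b (Ioo (-(3 / 4)) (3 / 4)), d p = 0
  sli : ∀ k x, ∀ y ∈ Ioo (-1 : ℝ) 1, sl y (pm (IR 2) (𝓡 3) (b k) d) x = 0
  eq : ∀ p ∉ slabs b {0}, pm (𝓡 3) (𝓡 3) φ d' p = d p
  off : ∀ p', (∀ p ∉ slabs b {0}, φ p ≠ p') → d' p' = 0

namespace Stp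

variable {C : End Y} {C' : End Y'} {b : κ → R × ℝ → Y} {b' : κ' → R × ℝ → Y'} (S : Stp C C' b b')

theorem exists_tr [Finite κ] {v : Fm 4 C.X} {d : Fm 3 Y} {d' : Fm 3 Y'} (hv : Z2 v)
    (e : En C.j v d) (h : Dt b S.φ d d') : ∃ v' : Fm 4 C'.X, Z2 v' ∧ En C'.j v' d' ∧
      (∀ x ∈ S.A, pm (𝓡 4) (𝓡 4) S.i v' x = v x) ∧ ∀ p ∈ univ ×ˢ S.V, pm IC (𝓡 4) S.e v' p = 0 := by
  obtain ⟨ε, hε, e⟩ := e
  obtain ⟨v', h1, h2, -, -, h3⟩ := exists_patch (a := v) (b := (0 : Fc R)) S.oA S.oV S.cov'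
    fun x hx p hp k₀ => by
      obtain ⟨k, hk, rfl⟩ := S.eq_bw (S.A_sub hx) k₀
      have m1 := (S.cm_bw k p).mdifferentiableAt ne0
      have m2 := (C.oe.contMDiff (bw (b k) S.w p)).mdifferentiableAt ne0
      refine ⟨C.j ∘ bw (b k) S.w, rfl, S.e_eq hk, m2.comp p m1, ?_⟩
      rw [← pm_comp m2 m1, pm_apply, e _ ((neg_lt_zero.2 hε).trans hp.2.1), pu,
        h.zer (bw (b k) S.w p).1 (S.bx.mem.2 (abs_lt.1 hp.2.2)), map_zero, map_zero]
      rfl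
  obtain ⟨δ, hδ, k⟩ := S.exists_eps S.g0
  obtain ⟨P, hP, -⟩ := (OE.of_oe C'.oe).exists_pf (pu d')
  refine ⟨v', h3 2 (hv.mono (subset_univ _)) Cl.zero, ⟨δ, hδ, fun ⟨p', s⟩ hs => ?_⟩, h1, h2⟩
  replace hs := k s hs
  by_cases h0 : ∃ p ∉ slabs b {0}, S.φ p = p'
  · obtain ⟨p, hp, rfl⟩ := h0
    have m := S.mem_X₀ (p := (p, S.g s)) (.inl hp)
    rw [← hP _ trivial]
    refine pm_congr_right ?_
    rw [S.ej p hp]
    refine eq_of_pm (f := S.i ∘ C.j) (S.oj.ld (p, S.g s) m) ?_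
    rw [S.pm_end hp hs (hP _ trivial), pu, h.eq p hp]
    by_cases hA : C.j (p, S.g s) ∈ S.A
    · rw [← pm_comp ((S.oA.ld _ hA).mdifferentiableAt ne0) ((C.oe.contMDiff _).mdifferentiableAt ne0),
        pm_congr_right (h1 _ hA), e _ (by linarith)]
      rfl
    · obtain ⟨l, x, y, hy, rfl⟩ := exists_of_slabs (not_not.1 (mt S.j_mem_A.2 hA)).1
      have hy' : |y| < 3 / 4 := (abs_le.2 hy).trans_lt (by norm_num)
      obtain ⟨z, -, z1, z2, z3⟩ := S.exists_e m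
      rw [h.zer _ (S.bx.mem.2 (abs_lt.1 hy')), map_zero, pm_apply, comp_apply, ← z3,
        zero_of_pm (S.oe.loc _) (h2 (x, z) ⟨trivial, z1 ▸ one_pos.trans hs, z2 ▸ hy'⟩), map_zero]
  · obtain ⟨x, z, z1, z2⟩ := (S.su p').resolve_left h0 s hs
    rw [pu, h.off p' fun p hp e => h0 ⟨p, hp, e⟩, map_zero, pm_apply, z2, zero_of_pm (S.oe.loc _)
      (h2 (x, z) ⟨trivial, by simpa [z1] using one_pos.trans hs, by norm_num [z1]⟩), map_zero]

/-- **the step** -/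
theorem op [Finite κ] (hN : NfStmt) (hb' : ∀ k, Box (b' k)) (hw : Surjective S.w) {o : Fm 3 Y}
    {O : Fm 4 C.X} {O' : Fm 4 C'.X} {oR : Fm 2 R} (ho : Ori (𝓡 3) o) (hO : Ori (𝓡 4) O)
    (hO' : Ori (𝓡 4) O') (hR : Ori (𝓡 2) oR) (hc : Cy o O C.j) (hb : ∀ k, Cy oR o (b k))
    (hi : SameOn (pm (𝓡 4) (𝓡 4) S.i O') O S.X₀) (he : SameOn (pm IC (𝓡 4) S.e O') (oP oR) univ)
    {A D : Set (Fm 3 Y)} {D' : Set (Fm 3 Y')} (hD : ∀ d ∈ D, ∃ d' ∈ D', Dt b S.φ d d')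
    (h : UC0 C O A D) : UC0 C' O' (Tr oR b b' S.φ A) D' := fun ι _ ζ β h1 h2 h3 => by
  choose ν z B n1 n2 n3 n4 n5 n6 n7 n8 n9 using fun q => S.norm hb' hw hR (h1 q) (h3 q) (h2 q).1
  obtain ⟨d, hd, v, v1, v2, v3⟩ := h ι z B n3 (fun q => (h2 q).2 _ (n4 q) (n8 q) (n7 q)) n5
  obtain ⟨d', hd', hdt⟩ := hD d hd
  obtain ⟨v', w1, w2, w3, w4⟩ := S.exists_tr v1 v2 hdt
  obtain ⟨u, u1, u2, u3⟩ := S.final hN ho hO hO' hc hb hi he
    (Z := fun q => ζ q + dM (𝓡 4) (ν q) + v') (fun q => ((h1 q).add (n1 q).z2).add w1)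
    (fun q => (n3 q).add v1) (fun q => (n5 q).add v2)
    (fun q => ((h3 q).add ((n2 q).dM (n1 q))).add w2)
    (fun q x hx => by rw [pm_add, Pi.add_apply, n6 q x hx, w3 x hx]; rfl)
    (fun q k => (n7 q k).add (hdt.sli k)) (fun q z hz x => by
      rw [rat, sz_congr (c' := pm IC (𝓡 4) S.e (ζ q + dM (𝓡 4) (ν q))) (by
        rw [pm_add, Pi.add_apply, w4 (x, z) ⟨trivial, hz.1⟩, add_zero])]
      exact n9 q z hz x) v3
  refine ⟨d', hd', v' + u, w1.add u1, by simpa using w2.add u2, Gd.of_ex n1 n2 ?_⟩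
  convert u3 using 2
  abel

end Stp

/-! ### the surgery -/

section op

variable {b₁ b₂ : R × ℝ → Y} {b₁' b₂' : R × ℝ → Y'}

/-- two boxes -/
def two (b₁ b₂ : R × ℝ → Y) (k : Bool) : R × ℝ → Y := cond k b₁ b₂

theorem slabs_two (s : Set ℝ) : slabs (two b₁ b₂) s = slab b₁ s ∪ slab b₂ s :=
  (union_eq_iUnion.trans (iUnion_congr fun k => by cases k <;> rfl)).symm

theorem boxes_two (h₁ : Box b₁) (h₂ : Box b₂) (h : ∀ p q, b₁ p ≠ b₂ q) : Boxes (two b₁ b₂) :=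
  ⟨fun k => by cases k <;> assumption, fun k l p q e => by
    cases k <;> cases l <;> first | rfl | exact (h _ _ e).elim | exact (h _ _ e.symm).elim⟩

theorem sh_bw (C : End Y) (b : R × ℝ → Y) (p : R × ℂ) :
    (sh C (-1)).j (bw b (fun z => z ^ 2 + 1) p) = C.j (Sep15.sq b p) := by
  simp [sh, bw, Sep15.sq]

variable {S : Sw b₁ b₂ b₁' b₂'} {C : End Y} {C' : End Y'}

theorem mem_src {p : Y} : p ∈ S.φ.source ↔ p ∉ slabs (two b₁ b₂) {0} := by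
  rw [S.src, slabs_two, mem_compl_iff]

/-- the surgery as a fibred step -/
def stpOp (P : Op S C C') (c : ℝ) : Stp (sh C (-1)) (sh C' c) (two b₁ b₂) (two b₁' b₂') where
  i := P.i
  X₀ := P.i.source
  e := P.e
  w z := z ^ 2 + 1
  J z := Complex.normSq (2 * z)
  Ω k := cond k {z | 0 < z.im} {z | z.im < 0}
  g s := Real.exp (s + c) + 1
  φ := S.φ
  bx := boxes_two S.o₁ S.o₂ S.dj
  oi := OE.of_pd P.i
  oe := P.oe
  ws := by fun_prop
  wJ z := Orx52.pm_oZ_hol (by simpa using (hasDerivAt_pow 2 z).add_const 1)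
  Jp z h := Complex.normSq_pos.2 (mul_ne_zero two_ne_zero (by rintro rfl; simp at h))
  cp r := (isCompact_closedBall (0 : ℂ) (|r| + 2)).of_isClosed_subset
    (isClosed_closedBall.preimage (by fun_prop)) fun z hz => by
      rw [mem_preimage, mem_closedBall_zero_iff] at hz
      have h := norm_sub_le (z ^ 2 + 1) 1
      rw [add_sub_cancel_right, norm_pow, norm_one] at h
      rw [mem_closedBall_zero_iff]
      nlinarith [le_abs_self r, norm_nonneg z, abs_nonneg r]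
  oΩ k := by
    cases k
    · exact isOpen_lt Complex.continuous_im continuous_const
    · exact isOpen_lt continuous_const Complex.continuous_im
  eq k p hp := by
    rw [sh_bw]
    cases k
    · exact ⟨P.raw.j_mem.2 (S.sq₂_mem (ne_of_lt hp)), P.dn p hp⟩
    · exact ⟨P.raw.j_mem.2 (S.sq₁_mem (ne_of_gt hp)), P.up p hp⟩
  hit x hx p e := (P.raw.i_eq_e hx e).elim (fun h => ⟨true, h.1⟩) fun h => ⟨false, h.1⟩
  cov x := (P.raw.cases x).imp id fun ⟨p, _, e⟩ => ⟨p, e⟩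
  ax z h := by
    have h0 : z.im = 0 := le_antisymm (not_lt.1 (h true)) (not_lt.1 (h false))
    simp [Sep15.sq_re, Sep15.sq_im, h0, sq_nonneg]
  ont k x y t h := by
    obtain ⟨z, h1, h2⟩ := Sep15.exists_root y (t + -1) ((P.raw.j_mem.1 h).imp_left fun h => by
      cases k
      · exact S.b₂_mem.1 h
      · exact S.b₁_mem.1 h)
    obtain ⟨h2, h3⟩ := Prod.ext_iff.1 h2
    have h4 : z ^ 2 + 1 = ⟨t, y⟩ := Complex.ext (by
      rw [Complex.add_re, show (z ^ 2).re = t + -1 from h3]; simp) (by simpa [Sep15.sz] using h2)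
    cases k
    · exact ⟨-z, by simpa using h1, by rw [neg_sq, h4]⟩
    · exact ⟨z, h1, h4⟩
  slt x hx := by
    obtain ⟨p, hp, rfl⟩ := not_not.1 (mt (fun h => P.src.ge h) hx)
    exact ⟨p.1, slabs_two _ ▸ hp.1, p.2 + 1, le_add_of_nonneg_left hp.2, by simp [sh]⟩
  gm s t h := by simpa using h
  gc := by fun_prop
  g0 := lt_add_of_pos_left _ (Real.exp_pos _)
  gs t h := ⟨Real.log (t - 1) - c, by simp [Real.exp_log (sub_pos.2 h)]⟩
  ej p hp s := (P.ej p (mem_src.2 hp) (s + c)).trans (by simp [sh])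
  ee z h := by
    have h1 : 0 < (z ^ 2).re := by simpa using h
    have h2 : ∀ s, Real.exp (s + c) + 1 = (z ^ 2 + 1).re → Real.log (z ^ 2).re = s + c :=
      fun s e => by rw [← Real.log_exp (s + c)]; exact congrArg _ (by simpa using e.symm)
    rcases lt_trichotomy z.re 0 with h0 | h0 | h0
    · exact ⟨true, fun x s e => (P.e₁ (x, z) h1 h0).trans (by rw [h2 s e]; simp [sh, two])⟩
    · rw [Sep15.sq_re, h0] at h1
      nlinarith [sq_nonneg z.im]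
    · exact ⟨false, fun x s e => (P.e₂ (x, z) h1 h0).trans (by rw [h2 s e]; simp [sh, two])⟩
  su p' := by
    rcases S.cases' p' with ⟨p, hp, e⟩ | ⟨x, rfl⟩ | ⟨x, rfl⟩
    · exact .inl ⟨p, mem_src.1 hp, e⟩
    · exact .inr fun s _ => ⟨x, _, by rw [neg_sq, Sep15.rt_sq]; simp, P.j₁ (x, 0) (s + c)⟩
    · exact .inr fun s _ => ⟨x, _, by rw [Sep15.rt_sq]; simp, P.j₂ (x, 0) (s + c)⟩

/-- **`OP*`** -/
theorem exists_op (hN : NfStmt) (P : Op S C C') {o : Fm 3 Y} {o' : Fm 3 Y'} {oR : Fm 2 R}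
    {O : Fm 4 C.X} (ho : Ori (𝓡 3) o) (ho' : Ori (𝓡 3) o') (hR : Ori (𝓡 2) oR) (hO : Ori (𝓡 4) O)
    (h₁ : Cy oR o b₁) (h₂ : Cy oR o b₂) (hφ : SameOn (pm (𝓡 3) (𝓡 3) S.φ o') o S.φ.source)
    (hc : Cy o O C.j) : ∃ O' : Fm 4 C'.X, Ori (𝓡 4) O' ∧ Cy o' O' C'.j ∧
      ∀ (A D : Set (Fm 3 Y)) (D' : Set (Fm 3 Y')), (∀ d ∈ D, ∃ d' ∈ D', Dt (two b₁ b₂) S.φ d d') →
        UC C O A D → UC C' O' (Tr oR (two b₁ b₂) (two b₁' b₂') S.φ A) D' := by
  obtain ⟨O', k1, k2, k3, k4⟩ := Orx52.oriOp Y Y' R b₁ b₂ b₁' b₂' S C C' P o o' oR O ho ho' hR hO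
    h₁ h₂ hφ hc
  refine ⟨O', k1, k2, fun A D D' hD h c => (stpOp P c).op hN (boxes_two S.o₁' S.o₂' S.dj').ob
    (fun u => ?_) ho hO k1 hR (hc.sh ho _) (fun k => by cases k <;> assumption) k3 k4 hD (h _)⟩
  obtain ⟨z, hz⟩ := IsAlgClosed.exists_pow_nat_eq (u - 1) two_pos
  exact ⟨z, eq_sub_iff_add_eq.1 hz⟩

end op

end Crest.Agent.X212.Bb31
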