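import Crest.Agent.X212.Bb31.Defs
import Crest.Agent.X212.Sep15.Cm

/-!
# X212/Bb31/Stm (helper31): the statements exported to the tower

`Clo P` (on `Sep15.Cm`), `Cap P Y o A`, `Mt` (matching data), `RegStmt`, `KillStmt`, `ReStmt`.
-/

set_option autoImplicit false
set_option linter.unusedSectionVars false

open Set Filter Topology Function
open scoped ContDiff Manifold
open Crest.Agent.R208.F Crest.Agent.X212.Dr59 Crest.Agent.X212.Int54 Crest.Agent.X212.Cyl58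
open Crest.Agent.X212.Sep15 (EE IR IC CM End Box slab px Sw Op Rg Bs Jo)
open Crest.Agent.X212.Sym24 (pu)

noncomputable section

namespace Crest.Agent.X212.Bb31

variable {Y Y' : CM 3} {R : CM 2}

/-- diffeomorphisms of a surface -/
abbrev Df (R : CM 2) : Type := R ≃ₘ^∞⟮𝓡 2, 𝓡 2⟯ R

/-- orientation preserving -/
def Pos (o : Fm 2 R) (f : R → R) : Prop := SameOn (pm (𝓡 2) (𝓡 2) f o) o univ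

/-- two disjoint increasing parametrisations of heights -/
structure Hs (σ₁ σ₂ : ℝ → ℝ) : Prop where
  o₁ : IsOE 𝓘(ℝ, ℝ) 𝓘(ℝ, ℝ) σ₁
  o₂ : IsOE 𝓘(ℝ, ℝ) 𝓘(ℝ, ℝ) σ₂
  m₁ : StrictMono σ₁
  m₂ : StrictMono σ₂
  neg : ∀ y, σ₁ y < 0
  pos : ∀ y, 0 < σ₂ y

/-- two exchanges of tops which realise the regluing by the commutator `s⁻¹ t s t⁻¹` -/
structure Cm {b : R × ℝ → Y} {h : R → R} {b' : R × ℝ → Y'} (G : Rg b h b') (s t : Df R)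
    (σ₁ σ₂ : ℝ → ℝ) where
  Y₁ : CM 3
  c₁ : R × ℝ → Y₁
  c₂ : R × ℝ → Y₁
  S₁ : Sw (b ∘ Prod.map id σ₁) (b ∘ Prod.map t σ₂) c₁ c₂
  S₂ : Sw c₁ (c₂ ∘ px s) (b' ∘ Prod.map id σ₁) (b' ∘ Prod.map (s.symm ∘ t ∘ s) σ₂)
  out : ∀ p ∉ slab b (Icc (σ₁ 0) (σ₂ 0)), S₁.φ p ∈ S₂.φ.source ∧ S₂.φ (S₁.φ p) = G.φ p
  mid : ∀ x, ∀ y ∈ Ioo (σ₁ 0) (σ₂ 0),
    S₁.φ (b (x, y)) ∈ S₂.φ.source ∧ S₂.φ (S₁.φ (b (x, y))) = b' (s.symm x, y)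

/-- `COMM` (helper15) -/
def CmStmt : Prop := ∀ (Y Y' : CM 3) (R : CM 2) (b : R × ℝ → Y) (h : R → R) (b' : R × ℝ → Y')
  (G : Rg b h b') (s t : Df R) (σ₁ σ₂ : ℝ → ℝ), (∀ x, h x = s.symm (t (s (t.symm x)))) → Hs σ₁ σ₂ →
  Nonempty (Cm G s t σ₁ σ₂)

/-- an extra property of caps which survives the two surgeries of a commutator and gives `EXR` -/
structure Clo (P : ∀ Y : CM 3, End Y → Prop) : Prop where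
  cm : ∀ (Y Y' : CM 3) (R : CM 2) (oR : Fm 2 R) (b : R × ℝ → Y) (h : R → R) (b' : R × ℝ → Y')
    (G : Rg b h b') (s t : Df R) (σ₁ σ₂ : ℝ → ℝ) (M : Sep15.Cm G t s σ₁ σ₂) (C : End Y)
    (C₁ : End M.Y₁) (C₂ : End Y'), PreconnectedSpace R → Ori (𝓡 2) oR → Pos oR s → Pos oR t →
    Op M.S₁ C C₁ → Op M.S₂ C₁ C₂ → P Y C → P Y' C₂
  re : ∀ (Y Y' : CM 3) (C : End Y) (f : Y' ≃ₘ^∞⟮𝓡 3, 𝓡 3⟯ Y), P Y C → P Y' (C.re f)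
  exr : ∀ (Y : CM 3) (C : End Y), P Y C → EXR C

/-- there is a universal cap with the extra property -/
def Cap (P : ∀ Y : CM 3, End Y → Prop) (Y : CM 3) (o : Fm 3 Y) (A : Set (Fm 3 Y)) : Prop :=
  ∃ C : End Y, P Y C ∧ OC C o A

/-- the data on `Y` and `Y'` correspond under a regluing -/
structure Mt {b : R × ℝ → Y} {h : R → R} {b' : R × ℝ → Y'} (G : Rg b h b') (oR : Fm 2 R)
    (o β : Fm 3 Y) (U : Set Y) (τ : Fm 3 Y) (o' β' : Fm 3 Y') (U' : Set Y') (τ' : Fm 3 Y') :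
    Prop where
  hR : Ori (𝓡 2) oR
  ho : Ori (𝓡 3) o
  ho' : Ori (𝓡 3) o'
  cy : Cy oR o b
  ori : SameOn (pm (𝓡 3) (𝓡 3) G.φ o') o G.φ.source
  sub : slab b (Ioo (-1) 1) ⊆ U
  sub' : slab b' (Ioo (-1) 1) ⊆ U'
  dy : Dy b τ (Ioo (-1) 1)
  dy' : Dy b' τ' (Ioo (-1) 1)
  mem : ∀ p ∉ slab b (Ioo (-1) 1), p ∈ U ↔ G.φ p ∈ U'
  be : ∀ p ∉ slab b (Icc (-2⁻¹) 2⁻¹), pm (𝓡 3) (𝓡 3) G.φ β' p = β p
  ta : ∀ p ∈ U, p ∉ slab b (Ioo (-1) 1) → ∃ f > (0 : ℝ), pm (𝓡 3) (𝓡 3) G.φ τ' p = f • τ p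

/-- `REG*` -/
def RegStmt : Prop := ∀ (P : ∀ Y : CM 3, End Y → Prop), Clo P → ∀ (Y Y' : CM 3) (R : CM 2)
  (b : R × ℝ → Y) (h : R → R) (b' : R × ℝ → Y') (G : Rg b h b') (s t : Df R) (oR : Fm 2 R)
  (o β : Fm 3 Y) (U : Set Y) (τ : Fm 3 Y) (o' β' : Fm 3 Y') (U' : Set Y') (τ' : Fm 3 Y'),
  PreconnectedSpace R → Pos oR s → Pos oR t → (∀ x, h x = s.symm (t (s (t.symm x)))) →
  Mt G oR o β U τ o' β' U' τ' → Cap P Y o (AA o β U τ) → Cap P Y' o' (AA o' β' U' τ')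

/-- `REG*`, relational form -/
def RegOc : Prop := ∀ (Y Y' : CM 3) (R : CM 2) (b : R × ℝ → Y) (h : R → R) (b' : R × ℝ → Y')
  (G : Rg b h b') (s t : Df R) (oR : Fm 2 R) (o β : Fm 3 Y) (U : Set Y) (τ : Fm 3 Y)
  (o' β' : Fm 3 Y') (U' : Set Y') (τ' : Fm 3 Y') (σ₁ σ₂ : ℝ → ℝ) (M : Sep15.Cm G t s σ₁ σ₂)
  (C : End Y) (C₁ : End M.Y₁) (C₂ : End Y'), Pos oR s → Pos oR t →
  (∀ y, σ₁ y ∈ Ioo (-2⁻¹ : ℝ) 2⁻¹) → (∀ y, σ₂ y ∈ Ioo (-2⁻¹ : ℝ) 2⁻¹) →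
  Mt G oR o β U τ o' β' U' τ' → Op M.S₁ C C₁ → Op M.S₂ C₁ C₂ →
  OC C o (AA o β U τ) → OC C₂ o' (AA o' β' U' τ')

/-- `REG*` with two predicates -/
def Reg2Stmt : Prop := ∀ (P Q : ∀ Y : CM 3, End Y → Prop) (Y Y' : CM 3) (R : CM 2)
  (b : R × ℝ → Y) (h : R → R) (b' : R × ℝ → Y') (G : Rg b h b') (s t : Df R) (oR : Fm 2 R)
  (o β : Fm 3 Y) (U : Set Y) (τ : Fm 3 Y) (o' β' : Fm 3 Y') (U' : Set Y') (τ' : Fm 3 Y'),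
  (∀ (σ₁ σ₂ : ℝ → ℝ) (M : Sep15.Cm G t s σ₁ σ₂) (C : End Y) (C₁ : End M.Y₁) (C₂ : End Y'),
    Op M.S₁ C C₁ → Op M.S₂ C₁ C₂ → P Y C → Q Y' C₂) →
  Pos oR s → Pos oR t → (∀ x, h x = s.symm (t (s (t.symm x)))) →
  Mt G oR o β U τ o' β' U' τ' → Cap P Y o (AA o β U τ) → Cap Q Y' o' (AA o' β' U' τ')

/-- `HEL*` and `KILL*` -/
def KillStmt : Prop := ∀ (P : ∀ Y : CM 3, End Y → Prop), Clo P → ∀ (Y : CM 3) (R : CM 2)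
  (o β τ τ' : Fm 3 Y) (U U' : Set Y) (oR ν θ θ₁ : Fm 2 R) (b : R × ℝ → Y) (k : R × ℝ → ℝ)
  (t : Df R), PreconnectedSpace R → Ori (𝓡 3) o → Ori (𝓡 2) oR → Box b → Cy oR o b →
  β ∈ AA o β U τ → Sm (𝓡 3) U τ → slab b (Icc (-1) 1) ⊆ U → U' ⊆ U →
  slab b (Ioo (-1) 1) ⊆ U' → Dy b τ' (Ioo (-1) 1) →
  (∀ p ∈ U', p ∉ slab b (Ioo (-1) 1) → ∃ f > (0 : ℝ), τ' p = f • τ p) →
  Dg 1 univ ν → Cl (𝓡 2) 1 univ θ → (∀ x, ν x ≠ 0 → 0 < rat oR (θ * ν) x) → (∀ p, 0 < k p) →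
  (∀ x, ∀ y ∈ Ioo (-1 : ℝ) 1, pm (IR 2) (𝓡 3) b τ (x, y) =
    k (x, y) • Sym24.dT (EE 2) + pu ν (x, y)) →
  Pos oR t → Cl (𝓡 2) 1 univ θ₁ → Ex (𝓡 2) univ (θ - (θ₁ - pm (𝓡 2) (𝓡 2) t θ₁)) →
  Cap P Y o (AA o β U τ) → Cap P Y o (AA o β U' τ')

/-- transport along a diffeomorphism -/
def ReStmt : Prop := ∀ (P : ∀ Y : CM 3, End Y → Prop), Clo P → ∀ (Y Y' : CM 3)
  (f : Y' ≃ₘ^∞⟮𝓡 3, 𝓡 3⟯ Y) (o : Fm 3 Y) (o' : Fm 3 Y') (A : Set (Fm 3 Y)) (A' : Set (Fm 3 Y')),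
  SameOn (pm (𝓡 3) (𝓡 3) f o) o' univ → (∀ a ∈ A', pm (𝓡 3) (𝓡 3) f.symm a ∈ A) →
  Cap P Y o A → Cap P Y' o' A'

end Crest.Agent.X212.Bb31
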