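import Crest.Agent.X212.Bb31.Opx
import Crest.Agent.X212.Bb31.Stm
import Crest.Agent.X212.Sym24.Main

/-!
# X212/Bb31/Reg (helper31): universal caps survive regluing by a commutator

`regOc : RegOc`, `reg2 : Reg2Stmt`, `regStmt : RegStmt`.
-/

set_option autoImplicit false
set_option linter.unusedSectionVars false

open Set Filter Topology Function Module Metric
open scoped ContDiff Manifold
open Crest.Agent.R208 Crest.Agent.R208.F Crest.Agent.R208.FI Crest.Agent.X212.Dr59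
  Crest.Agent.X212.Cyl58
open Crest.Agent.X212.Int54 (tp rat Ori SameOn)
open Crest.Agent.X212.Sep15 (EE IR IC CM End Box slab px Sw Op Rg)
open Crest.Agent.X212.Sym24 (pu dt sl dT)

noncomputable section

namespace Crest.Agent.X212.Bb31

variable {Y Y' : CM 3} {R : CM 2} {oR : Fm 2 R}

theorem Pos.cmp {s t : Df R} (hs : Pos oR s) (ht : Pos oR t) : Pos oR (s.trans t) := by
  have := Orx52.Pos.comp (s := univ) ht hs (fun y _ => (IsOE.of_diffeo t).loc y)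
    (fun y _ => (IsOE.of_diffeo s).loc y) (mapsTo_univ _ _)
  exact this

theorem pos_rfl (hR : Ori (𝓡 2) oR) : Pos oR (Diffeomorph.refl (𝓡 2) R ∞) := same_id hR

theorem Pos.inv (hR : Ori (𝓡 2) oR) {s : Df R} (hs : Pos oR s) : Pos oR s.symm :=
  Orx52.Pos.of_comp_left (f := s) (g := s.symm) (s := univ)
    (by rw [show s ∘ s.symm = id from funext s.apply_symm_apply]; exact same_id hR) hs
    (fun y _ => (IsOE.of_diffeo s).loc y) (fun y _ => (IsOE.of_diffeo s.symm).loc y) (mapsTo_univ _ _)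

section sl

variable {b : R × ℝ → Y} {b' : R × ℝ → Y'} {x : R} {y y' : ℝ}

theorem sl_tr (hb : Box b) (hb' : Box b') {ψ : Y → Y'} {B : Fm 3 Y} {a : Fm 3 Y'}
    (hψ : MDifferentiableAt (𝓡 3) (𝓡 3) ψ (b (x, y))) (e : B (b (x, y)) = pm (𝓡 3) (𝓡 3) ψ a (b (x, y)))
    {k : Df R} (hk : Pos oR k) (h : ∀ x, ψ (b (x, y)) = b' (k x, y')) :
    0 < rat oR (sl y (pm (IR 2) (𝓡 3) b B)) x ↔ 0 < rat oR (sl y' (pm (IR 2) (𝓡 3) b' a)) (k x) := by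
  rw [pos_ld ((IsOE.of_diffeo k).loc x) (hk x trivial), rat, rat, sl_pm hb,
    show sl y' (pm (IR 2) (𝓡 3) b' a) = _ from funext fun x => sl_pm hb' a,
    pm_congr_right (f := fun x => b (x, y)) e,
    pm_comp (f := fun x => b (x, y)) hψ ((cm_sl hb y x).mdifferentiableAt ne0),
    pm_comp ((cm_sl hb' y' _).mdifferentiableAt ne0) ((k.contMDiff x).mdifferentiableAt ne0),
    show (ψ ∘ fun x => b (x, y)) = _ from funext h]
  rfl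

theorem sl_map (hb : Box b) {k : Df R} (hk : Pos oR k) {σ : ℝ → ℝ} (hσ : Up σ univ) {a : Fm 3 Y} :
    0 < rat oR (sl y (pm (IR 2) (𝓡 3) (b ∘ Prod.map k σ) a)) x ↔
      0 < rat oR (sl (σ y) (pm (IR 2) (𝓡 3) b a)) (k x) :=
  sl_tr (ψ := id) (hb.sub k hσ) hb mdifferentiableAt_id (by rw [pm_id]) hk fun _ => rfl

theorem SP.map (hb : Box b) {k : Df R} (hk : Pos oR k) {σ : ℝ → ℝ} (hσ : Up σ univ) {a : Fm 3 Y}
    {s t : Set ℝ} (h : SP oR b a t) (hs : MapsTo σ s t) : SP oR (b ∘ Prod.map k σ) a s :=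
  fun _ _ hy => (sl_map hb hk hσ).2 (h _ _ (hs hy))

theorem sp_of_aa (hb : Box b) {o β τ a : Fm 3 Y} {U : Set Y} {s : Set ℝ} (hc : Cy oR o b)
    (dy : Dy b τ s) (sub : slab b s ⊆ U) (ha : a ∈ AA o β U τ) : SP oR b a s := fun x y hy => by
  obtain ⟨f, h1, h2⟩ := dy x y hy
  exact (pos_box' hb hc h1 h2 (ha.1.dg _ trivial)).1 (ha.2.2 _ (sub ((mem_slab hb).2 hy)))

end sl

theorem notMem_slabs {b₁ b₂ : R × ℝ → Y} {b₁' b₂' : R × ℝ → Y'} (S : Sw b₁ b₂ b₁' b₂') {s : Set ℝ}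
    {p : Y} (hp : p ∈ S.φ.source) (h : p ∉ slabs (two b₁ b₂) s) :
    S.φ p ∉ slabs (two b₁' b₂') s := by
  rw [slabs_two] at h ⊢
  have k := S.φ.map_source hp
  rintro (⟨q, hq, e⟩ | ⟨q, hq, e⟩)
  · have h0 := S.b₁'_mem.1 (e ▸ k)
    rcases h0.lt_or_gt with h1 | h1
    · exact h (.inl ⟨q, hq, S.φ.injOn (S.b₁_mem.2 h0) hp ((S.lo₁ q h1).trans e)⟩)
    · exact h (.inr ⟨q, hq, S.φ.injOn (S.b₂_mem.2 h0) hp ((S.hi₂ q h1).trans e)⟩)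
  · have h0 := S.b₂'_mem.1 (e ▸ k)
    rcases h0.lt_or_gt with h1 | h1
    · exact h (.inr ⟨q, hq, S.φ.injOn (S.b₂_mem.2 h0) hp ((S.lo₂ q h1).trans e)⟩)
    · exact h (.inl ⟨q, hq, S.φ.injOn (S.b₁_mem.2 h0) hp ((S.hi₁ q h1).trans e)⟩)

section reg

variable {b : R × ℝ → Y} {h : Df R} {b' : R × ℝ → Y'} {G : Rg b h b'} {o β τ : Fm 3 Y} {U : Set Y}
  {o' β' τ' : Fm 3 Y'} {U' : Set Y'} {s t : Df R} {σ₁ σ₂ : ℝ → ℝ}

theorem Mt.cy' (m : Mt G oR o β U τ o' β' U' τ') (hh : Pos oR h) : Cy oR o' b' := by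
  have k : ∀ {u : Set ℝ} (k : Df R), IsOpen u → 0 ∉ u → Pos oR k →
      (∀ p : R × ℝ, p.2 ∈ u → G.φ (b p) = b' (px k p)) →
      Orx52.Pos (IR 2) (𝓡 3) b' (univ ×ˢ u) (Orx52.cy oR) o' := fun {u} k hu h0 hk e => by
    have s1 : MapsTo b (univ ×ˢ u) G.φ.source := fun p hp => G.b_mem.2 fun e => h0 (e ▸ hp.2)
    have h1 := (Orx52.Pos.comp (t := univ ×ˢ u) m.ori (m.cy.mono (subset_univ _))
      (fun _ => Orx52.ldp G.φ) (fun p _ => G.o.loc p) s1).congr (f' := b' ∘ Prod.map k id)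
      (isOpen_univ.prod hu) fun p hp => (e p hp.2).symm
    have h2 := h1.of_comp (Orx52.Pos.cy (s := univ) hk (fun y _ => (IsOE.of_diffeo k).loc y)
      (fun x _ => hasDerivAt_id x) fun _ _ => one_pos) (fun p _ => G.o'.loc _)
      fun p _ => ((IsOE.of_diffeo k).prodMap IsOE.id).loc p
    rwa [prodMap_image_prod, image_id, image_univ, (show Surjective k from k.surjective).range_eq]
      at h2
  refine Orx52.Pos.dense Orx52.dense_ne isOpen_univ (((k (Diffeomorph.refl (𝓡 2) R ∞) isOpen_Iio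
    (lt_irrefl (0 : ℝ)) (pos_rfl m.hR) G.lo).union (k h isOpen_Ioi (lt_irrefl (0 : ℝ)) hh G.hi)).mono
      fun p hp => (lt_or_gt_of_ne hp.2).imp (fun h => ⟨trivial, h⟩) fun h => ⟨trivial, h⟩)
    (Orx52.oriOn (Orx52.ori_cy m.hR) _) (Orx52.oriOn m.ho' univ) (fun p _ => G.o'.loc p)
    (mapsTo_univ _ _)

variable (M : Sep15.Cm G t s σ₁ σ₂)

theorem cm_map {p : Y} (hp : p ∈ M.S₁.φ.source) : M.S₁.φ p ∈ M.S₂.φ.source := by
  rw [M.S₂.src, Sep15.slab_px _ (show Surjective (s : R → R) from s.surjective), ← M.S₁.tgt]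
  exact M.S₁.φ.map_source hp

theorem cm_ld {p : Y} (hp : p ∈ M.S₁.φ.source) :
    IsLocalDiffeomorphAt (𝓡 3) (𝓡 3) ∞ (M.S₂.φ ∘ M.S₁.φ) p :=
  ld_comp (Orx52.ldp _ (cm_map M hp)) (Orx52.ldp _ hp)

theorem cm_slabs (u : Set ℝ) : slabs (two (b ∘ Prod.map id σ₁) (b ∘ Prod.map t σ₂)) u =
    slab b (σ₁ '' u ∪ σ₂ '' u) := by
  rw [slabs_two, Sep15.slab_sub b surjective_id, Sep15.slab_sub b (t := t) t.surjective, slab, slab,
    slab, ← image_union, ← prod_union]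

theorem cm_ev {p : Y} (hp : p ∉ slab b (Icc (σ₁ 0) (σ₂ 0))) : M.S₂.φ ∘ M.S₁.φ =ᶠ[𝓝 p] G.φ :=
  eventually_of_mem ((isCompact_slab G.o _ _).isClosed.isOpen_compl.mem_nhds hp) M.out

theorem cm_split {p : Y} (hp : p ∈ M.S₁.φ.source) :
    p ∈ slab b (Ioo (σ₁ 0) (σ₂ 0)) ∨ p ∉ slab b (Icc (σ₁ 0) (σ₂ 0)) := by
  refine or_iff_not_imp_right.2 fun h1 => ?_
  obtain ⟨q, hq, rfl⟩ := not_not.1 h1
  rw [mem_src, cm_slabs, mem_slab G.o, image_singleton, image_singleton] at hp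
  exact ⟨q, ⟨trivial, lt_of_le_of_ne hq.2.1 fun h => hp (.inl h.symm),
    lt_of_le_of_ne hq.2.2 fun h => hp (.inr h)⟩, rfl⟩

theorem cm_pos (m : Mt G oR o β U τ o' β' U' τ') (hs : Pos oR s) (hh : Pos oR h) :
    Orx52.Pos (𝓡 3) (𝓡 3) (M.S₂.φ ∘ M.S₁.φ) M.S₁.φ.source o o' := fun p hp => by
  rcases cm_split M hp with ⟨q, hq, rfl⟩ | h1
  · have h1 : Orx52.Pos (IR 2) (𝓡 3) ((M.S₂.φ ∘ M.S₁.φ) ∘ b) {q} (Orx52.cy oR) o' :=
      Orx52.Pos.congr' (((m.cy' hh).map G.o' (IsOE.of_diffeo s.symm) (hs.inv m.hR) (Up.id _)).mono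
        (subset_univ _)) fun _ e => e ▸ eventually_of_mem
          ((isOpen_Ioo.preimage continuous_snd).mem_nhds hq.2) M.mid
    exact h1.of_comp (m.cy.mono (subset_univ _)) (fun _ e => e ▸ cm_ld M hp) (fun _ _ => G.o.loc _)
      _ ⟨q, rfl, rfl⟩
  · rw [pm_congr (b := o') (cm_ev M h1) rfl]
    exact m.ori p (G.mem_of_notMem (mem_Icc.2 ⟨M.lv.neg.le, M.lv.pos.le⟩) h1)

theorem mem_tr (m : Mt G oR o β U τ o' β' U' τ') (hs : Pos oR s) (ht : Pos oR t) (hh : Pos oR h)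
    (r₁ : ∀ y, σ₁ y ∈ Ioo (-2⁻¹ : ℝ) 2⁻¹) (r₂ : ∀ y, σ₂ y ∈ Ioo (-2⁻¹ : ℝ) 2⁻¹) :
    AA o' β' U' τ' ⊆ Tr oR (two M.c₁ (M.c₂ ∘ px s))
      (two (b' ∘ Prod.map id σ₁) (b' ∘ Prod.map (fun x => h (t x)) σ₂)) M.S₂.φ
      (Tr oR (two (b ∘ Prod.map id σ₁) (b ∘ Prod.map t σ₂)) (two M.c₁ M.c₂) M.S₁.φ
        (AA o β U τ)) := fun a ha => by
  have i1 : Ioo (-2⁻¹ : ℝ) 2⁻¹ ⊆ Ioo (-1) 1 := Ioo_subset_Ioo (by norm_num) (by norm_num)
  have i2 : Icc (-2⁻¹ : ℝ) 2⁻¹ ⊆ Ioo (-1) 1 := Icc_subset_Ioo (by norm_num) (by norm_num)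
  have i3 : Icc (σ₁ 0) (σ₂ 0) ⊆ Icc (-2⁻¹) 2⁻¹ := Icc_subset_Icc (r₁ 0).1.le (r₂ 0).2.le
  have h0 : (0 : ℝ) ∈ Icc (σ₁ 0) (σ₂ 0) := ⟨M.lv.neg.le, M.lv.pos.le⟩
  have sa := sp_of_aa G.o' (m.cy' hh) m.dy' m.sub' ha
  refine ⟨fun k => ?_, fun B₁ _ e₁ p₁ => ⟨fun k => ?_, fun B hB e p => ?_⟩⟩
  · cases k
    · exact sa.map G.o' (ht.cmp hh) M.lv.u₂ fun y _ => i1 (r₂ y)
    · exact sa.map G.o' (pos_rfl m.hR) M.lv.u₁ fun y _ => i1 (r₁ y)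
  · cases k
    · intro x y hy
      obtain ⟨x, rfl⟩ := (show Surjective s from s.surjective) x
      exact (sl_map M.S₁.o₂' hs (Up.id _)).1 (p₁ false x y hy)
    · exact p₁ true
  have k1 : ∀ q ∉ slab b (σ₁ '' Icc (-2⁻¹) 2⁻¹ ∪ σ₂ '' Icc (-2⁻¹) 2⁻¹), q ∈ M.S₁.φ.source ∧
      B q = pm (𝓡 3) (𝓡 3) (M.S₂.φ ∘ M.S₁.φ) a q := fun q hq => by
    rw [← cm_slabs (t := t)] at hq
    have h1 : q ∈ M.S₁.φ.source := mem_src.2 fun k => hq (slabs_mono (by norm_num) k)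
    have h2 := notMem_slabs M.S₁ h1 hq
    rw [slabs_two, ← Sep15.slab_px M.c₂ (show Surjective s from s.surjective), ← slabs_two] at h2
    refine ⟨h1, ?_⟩
    rw [e q hq, pm_congr_right (e₁ _ h2), pm_comp ((Orx52.ldp _ (cm_map M h1)).mdifferentiableAt ne0)
      ((Orx52.ldp _ h1).mdifferentiableAt ne0)]
  have k2 : ∀ q ∉ slab b (Icc (-2⁻¹) 2⁻¹), B q = pm (𝓡 3) (𝓡 3) G.φ a q := fun q hq => by
    rw [(k1 q fun k => hq (Sep15.slab_mono b (union_subset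
      (MapsTo.image_subset fun y _ => Ioo_subset_Icc_self (r₁ y))
      (MapsTo.image_subset fun y _ => Ioo_subset_Icc_self (r₂ y))) k)).2]
    exact pm_congr (cm_ev M fun k => hq (Sep15.slab_mono b i3 k)) rfl
  have k3 : SP oR b B (Ioo (-1) 1) := fun x y hy => by
    by_cases h1 : y ∈ σ₁ '' Icc (-2⁻¹) 2⁻¹ ∪ σ₂ '' Icc (-2⁻¹) 2⁻¹
    · rcases h1 with ⟨y, hy', rfl⟩ | ⟨y, hy', rfl⟩
      · exact (sl_map G.o (pos_rfl m.hR) M.lv.u₁).1 (p true x y (i2 hy'))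
      · obtain ⟨x, rfl⟩ := (show Surjective t from t.surjective) x
        exact (sl_map G.o ht M.lv.u₂).1 (p false x y (i2 hy'))
    · have h2 := fun x => k1 (b (x, y)) fun k => h1 ((mem_slab G.o).1 k)
      have h3 : ∀ k : Df R, Pos oR k → (∀ x, (M.S₂.φ ∘ M.S₁.φ) (b (x, y)) = b' (k x, y)) →
          0 < rat oR (sl y (pm (IR 2) (𝓡 3) b B)) x := fun k hk e =>
        (sl_tr G.o G.o' ((cm_ld M (h2 x).1).mdifferentiableAt ne0) (h2 x).2 hk e).2 (sa _ _ hy)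
      rcases cm_split M (h2 x).1 with h4 | h4 <;> rw [mem_slab G.o] at h4
      · exact h3 _ (hs.inv m.hR) fun x => M.mid (x, y) h4
      · have h5 := fun x => M.out (b (x, y)) fun k => h4 ((mem_slab G.o (p := (x, y))).1 k)
        rcases (show y ≠ 0 from fun e => h4 (e ▸ h0)).lt_or_gt with h6 | h6
        · exact h3 _ (pos_rfl m.hR) fun x => (h5 x).trans (G.lo _ h6)
        · exact h3 _ hh fun x => (h5 x).trans (G.hi _ h6)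
  obtain ⟨C, c1, c2, c3⟩ := ha.2.1
  have src : ∀ {u : Set ℝ}, 0 ∈ u → ∀ q ∉ slab b u, q ∈ G.φ.source := fun h _ => G.mem_of_notMem h
  refine ⟨hB, ⟨slab b (Icc (-2⁻¹) 2⁻¹) ∪ (slab b (Ioo (-2⁻¹) 2⁻¹))ᶜ ∩ G.φ ⁻¹' C,
    (isCompact_slab G.o _ _).isClosed.union (ContinuousOn.preimage_isClosed_of_isClosed
      (G.φ.contMDiffOn.continuousOn.mono (src (by norm_num)))
      (Sep15.isOpen_slab G.o isOpen_Ioo).isClosed_compl c1), fun q hq => ?_, fun q hq => ?_⟩,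
    fun q hq => ?_⟩
  · by_cases h1 : q ∈ slab b (Ioo (-1) 1)
    · exact m.sub h1
    · exact (m.mem q h1).2 (c2 (hq.resolve_left fun k => h1 (Sep15.slab_mono b i2 k)).2)
  · rw [mem_union, not_or] at hq
    rw [k2 q hq.1, ← m.be q hq.1]
    exact pm_congr_right (c3 _ fun k =>
      hq.2 ⟨fun k' => hq.1 (Sep15.slab_mono b Ioo_subset_Icc_self k'), k⟩)
  · by_cases h1 : q ∈ slab b (Ioo (-1) 1)
    · obtain ⟨⟨x, y⟩, hy, rfl⟩ := h1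
      obtain ⟨f, f1, f2⟩ := m.dy x y hy.2
      exact (pos_box' G.o m.cy f1 f2 (hB.dg _ trivial)).2 (k3 x y hy.2)
    · obtain ⟨f, f1, f2⟩ := m.ta q hq h1
      have h2 := src (by norm_num) q h1
      have h3 := (pos_ld (Orx52.ldp _ h2) (m.ori q h2) _).1 (ha.2.2 _ ((m.mem q h1).1 hq))
      rw [rat, pm_mul, Pi.mul_apply, f2, ← k2 q fun k => h1 (Sep15.slab_mono b i2 k), mul_smul_comm,
        map_smul, smul_eq_mul, mul_div_assoc] at h3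
      exact (pos_iff_pos_of_mul_pos h3).1 f1

theorem dt_zero {κ : Type} (b : κ → R × ℝ → Y) (φ : Y → Y') : Dt b φ 0 0 :=
  ⟨fun _ _ => rfl, fun _ _ _ _ => by rw [pm_zero]; exact map_zero _, fun _ _ => map_zero _,
    fun _ _ => rfl⟩

/-- the orientations along the two surgeries -/
theorem exists_cm_ori (m : Mt G oR o β U τ o' β' U' τ') (hs : Pos oR s) (ht : Pos oR t)
    (hh : Pos oR h) : ∃ o₁ : Fm 3 M.Y₁, Ori (𝓡 3) o₁ ∧ Cy oR o (b ∘ Prod.map id σ₁) ∧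
      Cy oR o (b ∘ Prod.map t σ₂) ∧ Cy oR o₁ M.c₁ ∧ Cy oR o₁ M.c₂ ∧ Cy oR o₁ (M.c₂ ∘ px s) ∧
      SameOn (pm (𝓡 3) (𝓡 3) M.S₁.φ o₁) o M.S₁.φ.source ∧
      SameOn (pm (𝓡 3) (𝓡 3) M.S₂.φ o') o₁ M.S₂.φ.source := by
  have c1 := m.cy.map G.o IsOE.id (same_id m.hR) M.lv.u₁
  have c2 := m.cy.map G.o (IsOE.of_diffeo t) ht M.lv.u₂
  obtain ⟨o₁, k1, k2, k3, k4⟩ := Orx52.oriSw _ _ _ _ _ _ _ M.S₁ o oR m.ho m.hR c1 c2
  have c3 := k3.map M.S₁.o₂' (IsOE.of_diffeo s) hs (Up.id _)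
  refine ⟨o₁, k1, c1, c2, k2, k3, c3, k4, ?_⟩
  have := (cm_pos M m hs hh).of_comp k4 (fun _ h => Orx52.ldp _ (cm_map M h)) fun _ => Orx52.ldp _
  rw [M.S₁.φ.toPartialEquiv.image_source_eq_target] at this
  refine this.mono fun q hq => ?_
  rwa [M.S₂.src, Sep15.slab_px _ (show Surjective (s : R → R) from s.surjective), ← M.S₁.tgt] at hq

end reg

theorem regOc : RegOc := by
  intro Y Y' R b h b' G s t oR o β U τ o' β' U' τ' σ₁ σ₂ M C C₁ C₂ hs ht r₁ r₂ m P₁ P₂ ⟨O, h1, h2, h3⟩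
  obtain rfl : h = ((t.symm.trans s).trans t).trans s.symm := funext fun x => by
    have := congrArg s.symm (M.eq (t.symm x))
    simpa using this
  have hh := (((ht.inv m.hR).cmp hs).cmp ht).cmp (hs.inv m.hR)
  obtain ⟨o₁, k1, k2, k3, k4, -, k5, k6, k7⟩ := exists_cm_ori M m hs ht hh
  obtain ⟨O₁, a1, a2, a3⟩ := exists_op Sym24.nfStmt P₁ m.ho k1 m.hR h1 k2 k3 k6 h2
  obtain ⟨O₂, b1, b2, b3⟩ := exists_op Sym24.nfStmt P₂ k1 m.ho' m.hR a1 k4 k5 k7 a2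
  exact ⟨O₂, b1, b2, (b3 _ _ {0} (forall_eq.2 ⟨0, rfl, dt_zero _ _⟩)
    (a3 _ _ {0} (forall_eq.2 ⟨0, rfl, dt_zero _ _⟩) h3)).mono (mem_tr M m hs ht hh r₁ r₂)
      Subset.rfl⟩

theorem reg2 : Reg2Stmt := by
  intro P Q Y Y' R b h b' G s t oR o β U τ o' β' U' τ' hP hs ht e m ⟨C, h1, h2⟩
  obtain rfl : h = ((t.symm.trans s).trans t).trans s.symm := funext e
  obtain ⟨σ₁, σ₂, L, r₁, r₂⟩ := Sep15.exists_lv (r := 2⁻¹) (by norm_num)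
  obtain ⟨M⟩ := Sep15.exists_cm G t s (fun x => by simp) L
  obtain ⟨C₁, ⟨P₁⟩⟩ := Sep15.opStmt _ _ _ _ _ _ _ M.S₁ C
  obtain ⟨C₂, ⟨P₂⟩⟩ := Sep15.opStmt _ _ _ _ _ _ _ M.S₂ C₁
  exact ⟨C₂, hP _ _ M C C₁ C₂ P₁ P₂ h1, regOc _ _ _ _ _ _ G s t oR o β U τ o' β' U' τ' _ _ M C C₁ C₂
    hs ht (fun y => ⟨(r₁ y).1, (r₁ y).2.trans (by norm_num)⟩)
    (fun y => ⟨lt_trans (by norm_num) (r₂ y).1, (r₂ y).2⟩) m P₁ P₂ h2⟩

theorem regStmt : RegStmt := fun P hP Y Y' R b h b' G s t oR o β U τ o' β' U' τ' hR hs ht e m =>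
  reg2 P P Y Y' R b h b' G s t oR o β U τ o' β' U' τ'
    (fun σ₁ σ₂ M C C₁ C₂ => hP.cm Y Y' R oR b h b' G s t σ₁ σ₂ M C C₁ C₂ hR m.hR hs ht) hs ht e m

end Crest.Agent.X212.Bb31
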