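import Crest.Agent.X212.Bb31.Fp
import Crest.Agent.X212.Cyl58.Ext
import Crest.Agent.X212.Cyl58.Int

/-!
# X212/Bb31/Stp (helper31): a fibred step from one cap to the next (geometry only)

`Stp C C' b b'` covers the surgery `Op` (`w = z² + 1`) and a collar (`w = z`).
-/

set_option autoImplicit false
set_option linter.unusedSectionVars false

open Set Filter Topology Function Module Metric
open scoped ContDiff Manifold
open Crest.Agent.R208 Crest.Agent.R208.F Crest.Agent.R208.FI Crest.Agent.X212.Dr59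
  Crest.Agent.X212.Cyl58
open Crest.Agent.X212.Int54 (tp rat Ori SameOn)
open Crest.Agent.X212.Sep15 (EE IR IC CM End Box slab)
open Crest.Agent.X212.Orx52 (oZ pr)
open Crest.Agent.X212.Sym24 (pu dt sl dT)

noncomputable section

namespace Crest.Agent.X212.Bb31

variable {Y Y' : CM 3} {R : CM 2} {κ κ' : Type}

/-! ### bumps, boxes -/

/-- one on `[b, c]`, zero off `(a, d)` -/
def bp (a b c d x : ℝ) : ℝ := stp a b x * (1 - stp c d x)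

theorem contDiff_bp (a b c d : ℝ) : ContDiff ℝ ∞ (bp a b c d) :=
  (contDiff_stp a b).mul (contDiff_const.sub (contDiff_stp c d))

theorem bp_nonneg (a b c d x : ℝ) : 0 ≤ bp a b c d x :=
  mul_nonneg (stp_nonneg _ _ _) (sub_nonneg.2 (stp_le_one _ _ _))

theorem bp_le_one (a b c d x : ℝ) : bp a b c d x ≤ 1 :=
  mul_le_one₀ (stp_le_one _ _ _) (sub_nonneg.2 (stp_le_one _ _ _))
    (sub_le_self _ (stp_nonneg _ _ _))

theorem bp_one {a b c d x : ℝ} (h : a < b) (h' : c < d) (hx : b ≤ x) (hx' : x ≤ c) :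
    bp a b c d x = 1 := by rw [bp, stp_one h hx, stp_zero h' hx', sub_zero, one_mul]

theorem bp_left {a b c d x : ℝ} (h : a < b) (hx : x ≤ a) : bp a b c d x = 0 := by
  rw [bp, stp_zero h hx, zero_mul]

theorem bp_right {a b c d x : ℝ} (h : c < d) (hx : d ≤ x) : bp a b c d x = 0 := by
  rw [bp, stp_one h hx, sub_self, mul_zero]

theorem bp_zero {a b c d x : ℝ} (h : a < b) (h' : c < d) (hx : x ∉ Icc a d) : bp a b c d x = 0 := by
  rcases not_and_or.1 hx with k | k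
  · exact bp_left h (not_le.1 k).le
  · exact bp_right h' (not_le.1 k).le

theorem isCompact_slab {b : R × ℝ → Y} (hb : Box b) (r s : ℝ) : IsCompact (slab b (Icc r s)) :=
  hb.isCompact_slab r s

theorem mem_slab {b : R × ℝ → Y} (hb : Box b) {s : Set ℝ} {p : R × ℝ} : b p ∈ slab b s ↔ p.2 ∈ s :=
  ⟨fun ⟨_, hq, e⟩ => hb.inj e ▸ hq.2, fun h => ⟨p, ⟨trivial, h⟩, rfl⟩⟩

/-- the union of the slabs -/
def slabs (b : κ → R × ℝ → Y) (s : Set ℝ) : Set Y := ⋃ k, slab (b k) s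

/-- disjoint boxes -/
structure Boxes (b : κ → R × ℝ → Y) : Prop where
  ob : ∀ k, Box (b k)
  dj : ∀ k l p q, b k p = b l q → k = l

theorem exists_of_slabs {b : κ → R × ℝ → Y} {s : Set ℝ} {p : Y} (h : p ∈ slabs b s) :
    ∃ k x y, y ∈ s ∧ p = b k (x, y) := by
  obtain ⟨k, q, hq, rfl⟩ := mem_iUnion.1 h
  exact ⟨k, q.1, q.2, hq.2, rfl⟩

theorem slabs_mono {b : κ → R × ℝ → Y} {s t : Set ℝ} (h : s ⊆ t) : slabs b s ⊆ slabs b t :=
  iUnion_mono fun _ => image_mono (prod_mono Subset.rfl h)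

theorem Boxes.mem {b : κ → R × ℝ → Y} (hb : Boxes b) {s : Set ℝ} {k : κ} {p : R × ℝ} :
    b k p ∈ slabs b s ↔ p.2 ∈ s := by
  refine ⟨fun h => ?_, fun h => mem_iUnion.2 ⟨k, (mem_slab (hb.ob k)).2 h⟩⟩
  obtain ⟨l, q, hq, e⟩ := mem_iUnion.1 h
  obtain rfl := hb.dj _ _ _ _ e
  exact (hb.ob l).inj e ▸ hq.2

theorem Boxes.isClosed [Finite κ] {b : κ → R × ℝ → Y} (hb : Boxes b) (r s : ℝ) :
    IsClosed (slabs b (Icc r s)) :=
  isClosed_iUnion_of_finite fun k => (isCompact_slab (hb.ob k) r s).isClosed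

theorem Boxes.isOpen {b : κ → R × ℝ → Y} (hb : Boxes b) {s : Set ℝ} (hs : IsOpen s) :
    IsOpen (slabs b s) := isOpen_iUnion fun k => (hb.ob k).isOpen_image (isOpen_univ.prod hs)

/-- a function of the height in the boxes -/
theorem Boxes.exists_fun [Finite κ] {b : κ → R × ℝ → Y} (hb : Boxes b) {f : ℝ → ℝ}
    (hf : ContDiff ℝ ∞ f) {r s c : ℝ} (h : ∀ y ∉ Icc r s, f y = c) :
    ∃ m : Y → ℝ, ContMDiff (𝓡 3) 𝓘(ℝ, ℝ) ∞ m ∧ (∀ k p, m (b k p) = f p.2) ∧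
      ∀ p ∉ slabs b (Icc r s), m p = c := by
  have k : ∀ a, ∀ p ∉ (univ ×ˢ Icc r s : Set (R × ℝ)), f p.2 = (fun _ => c) (b a p) :=
    fun _ p hp => h _ fun hy => hp ⟨trivial, hy⟩
  exact ⟨extF b (fun _ p => f p.2) fun _ => c,
    contMDiff_extF (IA := fun _ => IR 2) hb.ob hb.dj
      (fun k => (isCompact_slab (hb.ob k) r s).isClosed) k
      (fun _ => hf.contMDiff.comp contMDiff_snd) fun _ _ => contMDiffAt_const,
    fun k p => extF_apply (fun k => (hb.ob k).inj) hb.dj _ _ k p,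
    fun p hp => extF_eq (fun k => (hb.ob k).inj) hb.dj k hp⟩

/-! ### the step -/

/-- the point over `z` in the box `b` -/
def bw (b : R × ℝ → Y) (w : ℂ → ℂ) (p : R × ℂ) : Y × ℝ := (b (p.1, (w p.2).im), (w p.2).re)

/-- a fibred step -/
structure Stp (C : End Y) (C' : End Y') (b : κ → R × ℝ → Y) (b' : κ' → R × ℝ → Y') where
  i : C.X → C'.X
  X₀ : Set C.X
  e : R × ℂ → C'.X
  w : ℂ → ℂ
  J : ℂ → ℝ
  Ω : κ → Set ℂ
  g : ℝ → ℝ
  φ : Y → Y'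
  bx : Boxes b
  oi : OE (𝓡 4) (𝓡 4) X₀ i
  oe : IsOE IC (𝓡 4) e
  ws : ContDiff ℝ ∞ w
  wJ : ∀ z, pm 𝓘(ℝ, ℂ) 𝓘(ℝ, ℂ) w oZ z = J z • oZ z
  Jp : ∀ z, 1 < (w z).re → 0 < J z
  cp : ∀ r, IsCompact (w ⁻¹' closedBall 0 r)
  oΩ : ∀ k, IsOpen (Ω k)
  eq : ∀ k (p : R × ℂ), p.2 ∈ Ω k → C.j (bw (b k) w p) ∈ X₀ ∧ e p = i (C.j (bw (b k) w p))
  hit : ∀ x ∈ X₀, ∀ p, i x = e p → ∃ k, p.2 ∈ Ω k
  cov : ∀ x, x ∈ i '' X₀ ∨ x ∈ range e
  ax : ∀ z, (∀ k, z ∉ Ω k) → (w z).im = 0 ∧ 1 ≤ (w z).re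
  ont : ∀ k x y t, C.j (b k (x, y), t) ∈ X₀ → ∃ z ∈ Ω k, w z = ⟨t, y⟩
  slt : ∀ x ∉ X₀, ∃ p ∈ slabs b {0}, ∃ t, 1 ≤ t ∧ x = C.j (p, t)
  gm : StrictMono g
  gc : Continuous g
  g0 : 1 < g 0
  gs : ∀ t, 1 < t → ∃ s, g s = t
  ej : ∀ p ∉ slabs b {0}, ∀ s, C'.j (φ p, s) = i (C.j (p, g s))
  ee : ∀ z, 1 < (w z).re → ∃ k, ∀ x s, g s = (w z).re → e (x, z) = C'.j (b' k (x, (w z).im), s)
  su : ∀ p', (∃ p ∉ slabs b {0}, φ p = p') ∨
    ∀ s, 1 < g s → ∃ x z, w z = g s ∧ C'.j (p', s) = e (x, z)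

namespace Stp

variable {C : End Y} {C' : End Y'} {b : κ → R × ℝ → Y} {b' : κ' → R × ℝ → Y'} (S : Stp C C' b b')

/-- the level of the new boundary -/
def T : ℝ := S.g 0

/-- the part which is not changed -/
def A (_ : Stp C C' b b') : Set C.X := (C.j '' (slabs b (Icc (-2⁻¹) 2⁻¹) ×ˢ Ici 2⁻¹))ᶜ

/-- the fibred part -/
def V : Set ℂ := {z | 0 < (S.w z).re ∧ |(S.w z).im| < 3 / 4}

theorem cre : Continuous fun z => (S.w z).re := Complex.continuous_re.comp S.ws.continuous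
theorem cim : Continuous fun z => (S.w z).im := Complex.continuous_im.comp S.ws.continuous

theorem isOpen_V : IsOpen S.V :=
  (isOpen_lt continuous_const S.cre).inter (isOpen_lt S.cim.abs continuous_const)

theorem isOpen_A [Finite κ] : IsOpen S.A :=
  (C.isEnd.isClosed_image ((S.bx.isClosed _ _).prod isClosed_Ici)
    (prod_mono (subset_univ _) (Ici_subset_Ici.2 (by norm_num)))).isOpen_compl

theorem j_mem_A {p : Y × ℝ} : C.j p ∈ S.A ↔ ¬(p.1 ∈ slabs b (Icc (-2⁻¹) 2⁻¹) ∧ 2⁻¹ ≤ p.2) :=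
  not_congr ⟨fun ⟨_, hq, e⟩ => C.oe.inj e ▸ hq, fun h => ⟨p, h, rfl⟩⟩

theorem mem_X₀ {p : Y × ℝ} (h : p.1 ∉ slabs b {0} ∨ p.2 < 1) : C.j p ∈ S.X₀ := by
  by_contra k
  obtain ⟨q, hq, t, ht, e⟩ := S.slt _ k
  obtain rfl := C.oe.inj e
  exact h.elim (fun h => h hq) fun h => h.not_ge ht

theorem A_sub : S.A ⊆ S.X₀ := fun x hx => by
  by_contra k
  obtain ⟨q, hq, t, ht, rfl⟩ := S.slt _ k
  exact S.j_mem_A.1 hx ⟨slabs_mono (by norm_num) hq, le_trans (by norm_num) ht⟩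

theorem oA [Finite κ] : OE (𝓡 4) (𝓡 4) S.A S.i := S.oi.mono S.isOpen_A S.A_sub

theorem oV : OE IC (𝓡 4) (univ ×ˢ S.V) S.e :=
  (OE.of_oe S.oe).mono (isOpen_univ.prod S.isOpen_V) (subset_univ _)

theorem isCompact_rect (a c r : ℝ) :
    IsCompact {z | (S.w z).re ∈ Icc a c ∧ |(S.w z).im| ≤ r} := by
  refine (S.cp (|a| + |c| + r)).of_isClosed_subset
    ((isClosed_Icc.preimage S.cre).inter (isClosed_le S.cim.abs continuous_const)) fun z hz => ?_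
  rw [mem_preimage, mem_closedBall_zero_iff]
  refine (Complex.norm_le_abs_re_add_abs_im _).trans (add_le_add (abs_le.2 ⟨?_, ?_⟩) hz.2)
  · linarith [hz.1.1, neg_abs_le a, abs_nonneg c]
  · linarith [hz.1.2, le_abs_self c, abs_nonneg a]

theorem cm_bw (k : κ) : ContMDiff IC (IR 3) ∞ (bw (b k) S.w) := by
  have h : ∀ f : ℂ →L[ℝ] ℝ, ContMDiff IC 𝓘(ℝ, ℝ) ∞ fun p : R × ℂ => f (S.w p.2) := fun f =>
    (f.contDiff.comp S.ws).contMDiff.comp contMDiff_snd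
  exact ((S.bx.ob k).contMDiff.comp (contMDiff_fst.prodMk (h Complex.imCLM))).prodMk
    (h Complex.reCLM)

theorem e_eq {k : κ} {p : R × ℂ} (h : p.2 ∈ S.Ω k) :
    S.e =ᶠ[𝓝 p] S.i ∘ (C.j ∘ bw (b k) S.w) := by
  filter_upwards [((S.oΩ k).preimage continuous_snd).mem_nhds h] with q hq using (S.eq k q hq).2

/-- forms on the fibred part are read in the old cap -/
theorem pm_e {k : κ} {p : R × ℂ} (h : p.2 ∈ S.Ω k) (a : Fm 4 C'.X) : pm IC (𝓡 4) S.e a p =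
    pm IC (IR 3) (bw (b k) S.w) (pm (IR 3) (𝓡 4) C.j (pm (𝓡 4) (𝓡 4) S.i a)) p := by
  have h1 := (S.cm_bw k p).mdifferentiableAt ne0
  have h2 := (C.oe.contMDiff (bw (b k) S.w p)).mdifferentiableAt ne0
  rw [pm_congr (b := a) (S.e_eq h) rfl, pm_comp h2 h1,
    pm_comp (f := C.j ∘ bw (b k) S.w) ((S.oi.ld _ (S.eq k p h).1).mdifferentiableAt ne0)
      (h2.comp p h1)]

theorem eq_bw {x : C.X} (hx : x ∈ S.X₀) {p : R × ℂ} (h : S.i x = S.e p) :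
    ∃ k, p.2 ∈ S.Ω k ∧ x = C.j (bw (b k) S.w p) := by
  obtain ⟨k, hk⟩ := S.hit x hx p h
  exact ⟨k, hk, S.oi.inj hx (S.eq k p hk).1 (h.trans (S.eq k p hk).2)⟩

theorem exists_e {k : κ} {x : R} {y t : ℝ} (h : C.j (b k (x, y), t) ∈ S.X₀) :
    ∃ z ∈ S.Ω k, (S.w z).re = t ∧ (S.w z).im = y ∧ S.e (x, z) = S.i (C.j (b k (x, y), t)) := by
  obtain ⟨z, hz, e⟩ := S.ont k x y t h
  refine ⟨z, hz, by rw [e], by rw [e], ?_⟩
  rw [(S.eq k (x, z) hz).2, bw, e]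

theorem cov' (x : C'.X) : x ∈ S.i '' S.A ∨ x ∈ S.e '' (univ ×ˢ S.V) := by
  rcases S.cov x with ⟨x, hx, rfl⟩ | ⟨p, rfl⟩
  · by_cases h : x ∈ S.A
    · exact .inl (mem_image_of_mem _ h)
    · obtain ⟨⟨p, t⟩, ⟨hp, ht⟩, rfl⟩ := not_not.1 h
      obtain ⟨k, x, y, hy, rfl⟩ := exists_of_slabs hp
      obtain ⟨z, -, h1, h2, h3⟩ := S.exists_e hx
      refine .inr ⟨(x, z), ⟨trivial, ?_, ?_⟩, h3⟩
      · exact h1 ▸ lt_of_lt_of_le (by norm_num) ht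
      · exact h2 ▸ (abs_le.2 hy).trans_lt (by norm_num)
  · by_cases h : p.2 ∈ S.V
    · exact .inr ⟨p, ⟨trivial, h⟩, rfl⟩
    · obtain ⟨k, hk⟩ : ∃ k, p.2 ∈ S.Ω k := by
        by_contra k
        obtain ⟨h1, h2⟩ := S.ax _ (not_exists.1 k)
        exact h ⟨one_pos.trans_le h2, by rw [h1]; norm_num⟩
      refine .inl ⟨_, S.j_mem_A.2 fun ⟨h1, h2⟩ => h ⟨lt_of_lt_of_le (by norm_num) h2, ?_⟩,
        (S.eq k p hk).2.symm⟩
      exact (abs_le.2 (S.bx.mem.1 h1)).trans_lt (by norm_num)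

theorem lev_e {p' : Y'} {s : ℝ} (hs : 1 < S.g s) {p : R × ℂ} (h : S.e p = C'.j (p', s)) :
    (S.w p.2).re = S.g s := by
  rcases S.su p' with ⟨q, hq, rfl⟩ | k
  · obtain ⟨k, -, e⟩ := S.eq_bw (S.mem_X₀ (p := (q, S.g s)) (.inl hq)) ((S.ej q hq s).symm.trans h.symm)
    exact (congrArg Prod.snd (C.oe.inj e)).symm
  · obtain ⟨x, z, h1, h2⟩ := k s hs
    rw [S.oe.inj (h.trans h2), h1, Complex.ofReal_re]

theorem lev_i {p' : Y'} {s : ℝ} (hs : 1 < S.g s) {x : C.X} (hx : x ∈ S.X₀)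
    (h : S.i x = C'.j (p', s)) : ∃ p, x = C.j (p, S.g s) := by
  rcases S.su p' with ⟨q, hq, rfl⟩ | k
  · exact ⟨q, S.oi.inj hx (S.mem_X₀ (p := (q, S.g s)) (.inl hq)) (h.trans (S.ej q hq s))⟩
  · obtain ⟨y, z, h1, h2⟩ := k s hs
    obtain ⟨k, -, e⟩ := S.eq_bw hx (h.trans h2)
    exact ⟨_, by rw [e, bw, h1, Complex.ofReal_re]⟩

theorem e_le {p : R × ℂ} (h : S.e p ∈ C'.K 0) : (S.w p.2).re ≤ S.T := by
  by_contra k
  have k := not_le.1 k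
  obtain ⟨s, hs⟩ := S.gs _ (S.g0.trans k)
  obtain ⟨l, e⟩ := S.ee _ (S.g0.trans k)
  rw [show p = (p.1, p.2) from rfl, e _ s hs, C'.j_mem_K] at h
  exact (S.gm.monotone h).not_gt (hs ▸ k)

theorem i_mem {x : C.X} (hx : x ∈ S.X₀) (h : S.i x ∈ C'.K 0) : x ∈ C.K S.T := by
  by_contra k
  obtain ⟨⟨p, t⟩, ⟨-, ht⟩, rfl⟩ := not_not.1 k
  by_cases hp : p ∈ slabs b {0}
  · obtain ⟨k, x, y, -, rfl⟩ := exists_of_slabs hp
    obtain ⟨z, -, h1, -, h3⟩ := S.exists_e hx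
    exact (S.e_le (p := (x, z)) (h3 ▸ h)).not_gt (h1 ▸ ht)
  · obtain ⟨s, rfl⟩ := S.gs t (S.g0.trans ht)
    rw [← S.ej p hp, C'.j_mem_K] at h
    exact (S.gm.monotone h).not_gt ht

/-- a margin below the new boundary -/
theorem exists_margin {ε : ℝ} (hε : 0 < ε) : ∃ T₁, 1 < T₁ ∧ T₁ < S.T ∧ ∀ s, T₁ ≤ S.g s → -ε < s := by
  obtain ⟨T₁, h1, h2⟩ := exists_between (max_lt S.g0 (S.gm (neg_lt_zero.2 hε)))
  exact ⟨T₁, (le_max_left _ _).trans_lt h1, h2,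
    fun s hs => S.gm.lt_iff_lt.1 (((le_max_right _ _).trans_lt h1).trans_le hs)⟩

theorem exists_eps {T₁ : ℝ} (h : T₁ < S.T) : ∃ ε > (0 : ℝ), ∀ s, -ε < s → T₁ < S.g s := by
  obtain ⟨ε, hε, k⟩ := Metric.eventually_nhds_iff.1 (S.gc.continuousAt.eventually (lt_mem_nhds h))
  refine ⟨ε, hε, fun s hs => ?_⟩
  rcases le_or_gt 0 s with h0 | h0
  · exact h.trans_le (S.gm.monotone h0)
  · exact k (by rw [Real.dist_eq, sub_zero, abs_of_neg h0]; linarith)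

/-- a form which vanishes above a level below the boundary -/
theorem en_zero {a : Fm 4 C'.X} {T₁ : ℝ} (h1 : 1 ≤ T₁) (h : T₁ < S.T)
    (ha : ∀ p' s, T₁ < S.g s → 1 < S.g s → a (C'.j (p', s)) = 0) : En C'.j a (0 : Fm 3 Y') := by
  obtain ⟨ε, hε, k⟩ := S.exists_eps h
  refine ⟨ε, hε, fun p hp => ?_⟩
  rw [pm_apply, ha p.1 p.2 (k _ hp) (h1.trans_lt (k _ hp)), map_zero]
  exact (map_zero _).symm

theorem cm_φ {p : Y} [Finite κ] (hp : p ∉ slabs b {0}) : ContMDiffAt (𝓡 3) (𝓡 3) ∞ S.φ p := by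
  have o : IsOpen (slabs b {0})ᶜ := by
    rw [← Icc_self]
    exact (S.bx.isClosed 0 0).isOpen_compl
  have h1 : ContMDiffAt (𝓡 3) (𝓡 4) ∞ (fun q => S.i (C.j (q, S.g 0))) p :=
    (S.oi.ld _ (S.mem_X₀ (p := (p, S.g 0)) (.inl hp))).contMDiffAt.comp p
      ((C.oe.contMDiff _).comp p (contMDiffAt_id.prodMk contMDiffAt_const))
  have h2 : ContMDiffAt (𝓡 3) (IR 3) ∞ (fun q => (S.φ q, (0 : ℝ))) p :=
    C'.oe.contMDiffAt_left (h1.congr_of_eventuallyEq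
      (eventually_of_mem (o.mem_nhds hp) fun q hq => S.ej q hq 0))
  exact contMDiffAt_fst.comp p h2

end Stp

end Crest.Agent.X212.Bb31
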